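import Vale.Agent.P297Z.Surf.Ord
import Mathlib

/-!
# P287D, block PB: transcendence degrees of residue fields (the inequalities of Abhyankar)
-/

set_option linter.unusedSectionVars false

open Set IsLocalRing Algebra Cardinal
open Vale.Agent.P297 (Place)
open Vale.Agent.P297Z

noncomputable section

namespace Vale.Agent.P287D.Pb

section rm

variable {F E : Type} [Field F] [Field E] {φ : F →+* E} {W : ValuationSubring F}
  {V : ValuationSubring E}

/-- the map of valuation rings -/
def rh (h : ∀ f, f ∈ W ↔ φ f ∈ V) : W →+* V :=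
  (φ.comp W.subtype).codRestrict V fun f => (h f).1 f.2

theorem rh_local (h : ∀ f, f ∈ W ↔ φ f ∈ V) : IsLocalHom (rh h) := by
  refine ⟨fun a ha => ?_⟩
  obtain ⟨b, hb⟩ := ha.exists_right_inv
  have h1 : φ a * b = 1 := congrArg (fun z : V => (z : E)) hb
  have h0 : (a : F) ≠ 0 := (map_ne_zero φ).1 (left_ne_zero_of_mul_eq_one h1)
  have h2 : (a : F)⁻¹ ∈ W := by
    rw [h, map_inv₀, ← eq_inv_of_mul_eq_one_right h1]; exact b.2
  exact IsUnit.of_mul_eq_one ⟨_, h2⟩ (Subtype.ext (mul_inv_cancel₀ h0))

/-- the map of residue fields -/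
def rm (h : ∀ f, f ∈ W ↔ φ f ∈ V) : ResidueField W →+* ResidueField V :=
  letI := rh_local h
  ResidueField.map (rh h)

theorem rm_residue (h : ∀ f, f ∈ W ↔ φ f ∈ V) (a : W) :
    rm h (residue W a) = residue V ⟨φ a, (h a).1 a.2⟩ := rfl

end rm

section gen

variable {k F E : Type} [Field k] [Field F] [Field E]

/-- algebraic independence lifts from the residue fields -/
theorem lift_ind [Algebra F E] {W : ValuationSubring F} {V : ValuationSubring E}
    (h : ∀ f ∈ W, algebraMap F E f ∈ V) [Algebra (ResidueField W) (ResidueField V)]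
    (ha : ∀ a : W, algebraMap _ _ (residue W a) = residue V ⟨algebraMap F E a, h a a.2⟩)
    {ι : Type} (x : ι → V)
    (hx : AlgebraicIndependent (ResidueField W) fun i => residue V (x i)) :
    AlgebraicIndependent F fun i => (x i : E) := by
  classical
  rw [algebraicIndependent_iff] at hx ⊢
  intro p hp
  by_contra hne
  obtain ⟨m, hm, hmax⟩ := p.support.exists_max_image (fun m => W.valuation (p.coeff m))
    (MvPolynomial.support_nonempty.2 hne)
  have hc : p.coeff m ≠ 0 := MvPolynomial.mem_support_iff.1 hm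
  obtain ⟨q, hq⟩ : MvPolynomial.C (p.coeff m)⁻¹ * p ∈ range (MvPolynomial.map W.subtype) := by
    rw [MvPolynomial.mem_range_map_iff_coeffs_subset]
    intro c hc'
    obtain ⟨n, hn, rfl⟩ := MvPolynomial.mem_coeffs_iff.1 hc'
    have hn' : n ∈ p.support := by
      rw [MvPolynomial.mem_support_iff, MvPolynomial.coeff_C_mul] at hn
      exact MvPolynomial.mem_support_iff.2 (right_ne_zero_of_mul hn)
    refine ⟨⟨MvPolynomial.coeff n (MvPolynomial.C (p.coeff m)⁻¹ * p), ?_⟩, rfl⟩
    rw [MvPolynomial.coeff_C_mul, ← W.valuation_le_one_iff, map_mul, map_inv₀, mul_comm,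
      ← div_eq_mul_inv, div_le_one₀ (zero_lt_iff.2 ((map_ne_zero _).2 hc))]
    exact hmax n hn'
  let ρ : W →+* V := ((algebraMap F E).comp W.subtype).codRestrict V fun f => h f f.2
  have h1 : MvPolynomial.eval₂ ρ x q = 0 := by
    apply Subtype.ext
    change V.subtype (MvPolynomial.eval₂ ρ x q) = 0
    rw [MvPolynomial.eval₂_comp_left]
    have h2 : V.subtype.comp ρ = (algebraMap F E).comp W.subtype := rfl
    rw [h2, ← MvPolynomial.eval₂_map, hq, MvPolynomial.eval₂_mul]
    have h3 : MvPolynomial.eval₂ (algebraMap F E) (V.subtype ∘ x) p = 0 := hp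
    rw [h3, mul_zero]
  have h2 := congrArg (residue V) h1
  have h3 : (residue V).comp ρ = (algebraMap _ _).comp (residue W) :=
    RingHom.ext fun a => (ha a).symm
  rw [MvPolynomial.eval₂_comp_left, map_zero, h3, ← MvPolynomial.eval₂_map] at h2
  have h4 := congrArg (MvPolynomial.coeff m) (hx _ h2)
  have h5 := congrArg (MvPolynomial.coeff m) hq
  rw [MvPolynomial.coeff_map, MvPolynomial.coeff_C_mul, inv_mul_cancel₀ hc] at h5
  have h6 : q.coeff m = 1 := Subtype.ext h5
  rw [MvPolynomial.coeff_map, h6, map_one, MvPolynomial.coeff_zero] at h4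
  exact one_ne_zero h4

theorem res_le [Algebra F E] {W : ValuationSubring F} {V : ValuationSubring E}
    (h : ∀ f ∈ W, algebraMap F E f ∈ V) [Algebra (ResidueField W) (ResidueField V)]
    (ha : ∀ a : W, algebraMap _ _ (residue W a) = residue V ⟨algebraMap F E a, h a a.2⟩) :
    trdeg (ResidueField W) (ResidueField V) ≤ trdeg F E := by
  obtain ⟨β, x, hx⟩ := exists_isTranscendenceBasis' (ResidueField W) (ResidueField V)
  choose x' hx' using fun b => residue_surjective (x b)
  have h1 := lift_ind h ha x' (by simpa only [hx'] using hx.1)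
  rw [← hx.cardinalMk_eq_trdeg]
  exact h1.cardinalMk_le_trdeg

theorem option_ind0 {R κ : Type} [CommRing R] [IsDomain R] [Field κ] [Algebra k R] [Algebra k κ]
    (ρ : R →ₐ[k] κ) {ι : Type} (x : ι → R) (hx : AlgebraicIndependent k fun i => ρ (x i)) (t : R)
    (ht0 : t ≠ 0) (ht : ρ t = 0) : AlgebraicIndependent k fun o : Option ι => o.elim t x := by
  have h1 : AlgebraicIndependent k x := AlgebraicIndependent.of_comp ρ hx
  have h2 : Transcendental (Algebra.adjoin k (Set.range x)) t := by
    intro halg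
    obtain ⟨q, hq0, hq⟩ := halg.exists_nonzero_coeff_and_aeval_eq_zero
      (mem_nonZeroDivisors_of_ne_zero ht0)
    apply hq0
    have h3 : ρ (q.coeff 0) = 0 := by
      have h4 := congrArg ρ.toRingHom hq
      have h5 : ρ.toRingHom t = 0 := ht
      rw [Polynomial.aeval_def, Polynomial.hom_eval₂, h5, Polynomial.eval₂_at_zero,
        map_zero] at h4
      exact h4
    obtain ⟨G, hG⟩ : ((q.coeff 0 : Algebra.adjoin k (Set.range x)) : R) ∈
        (MvPolynomial.aeval x : MvPolynomial ι k →ₐ[k] R).range := by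
      rw [← Algebra.adjoin_range_eq_range_aeval]
      exact (q.coeff 0).2
    have hG' : MvPolynomial.aeval x G = (q.coeff 0 : Algebra.adjoin k (Set.range x)) := hG
    rw [← hG', MvPolynomial.comp_aeval_apply] at h3
    rw [algebraicIndependent_iff.1 hx G h3, map_zero] at hG'
    exact Subtype.ext hG'.symm
  exact (h1.option_iff_transcendental t).2 h2

/-- independent residues and a non unit are independent -/
theorem option_ind [Algebra k F] {W : ValuationSubring F} (hk : ∀ a, algebraMap k F a ∈ W)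
    [Algebra k (ResidueField W)]
    (ha : ∀ a, algebraMap k _ a = residue W ⟨algebraMap k F a, hk a⟩) {ι : Type} (x : ι → W)
    (hx : AlgebraicIndependent k fun i => residue W (x i)) (t : W) (ht0 : t ≠ 0)
    (ht : residue W t = 0) :
    AlgebraicIndependent k fun o : Option ι => ((o.elim t x : W) : F) := by
  let _ : Algebra k W := ((algebraMap k F).codRestrict W hk).toAlgebra
  let ρ : W →ₐ[k] ResidueField W := ⟨residue W, fun a => (ha a).symm⟩
  let j : W →ₐ[k] F := ⟨W.subtype, fun _ => rfl⟩
  have hj : Function.Injective j := Subtype.val_injective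
  have h1 := (option_ind0 ρ x hx t ht0 ht).map' hj
  exact h1

theorem res_lt [Algebra k F] {W : ValuationSubring F} (hW : W ≠ ⊤)
    (hk : ∀ a, algebraMap k F a ∈ W) [Algebra k (ResidueField W)]
    (ha : ∀ a, algebraMap k _ a = residue W ⟨algebraMap k F a, hk a⟩) :
    trdeg k (ResidueField W) + 1 ≤ trdeg k F := by
  obtain ⟨β, x, hx⟩ := exists_isTranscendenceBasis' k (ResidueField W)
  choose x' hx' using fun b => residue_surjective (x b)
  obtain ⟨f, hf⟩ : ∃ f, f ∉ W := by
    by_contra hc
    push Not at hc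
    exact hW (eq_top_iff.2 fun f _ => hc f)
  have hf0 : f ≠ 0 := by rintro rfl; exact hf W.zero_mem
  have hi : f⁻¹ ∈ W := (W.mem_or_inv_mem f).resolve_left hf
  have h1 := option_ind hk ha x' (by simpa only [hx'] using hx.1) ⟨f⁻¹, hi⟩
    (fun h => inv_ne_zero hf0 (congrArg Subtype.val h)) (by
      by_contra hc
      obtain ⟨b, hb⟩ := ((residue_ne_zero_iff_isUnit _).1 hc).exists_right_inv
      have h1 : f⁻¹ * b = 1 := congrArg (fun z : W => (z : F)) hb
      apply hf
      rw [← inv_inv f, ← eq_inv_of_mul_eq_one_right h1]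
      exact b.2)
  have h2 := h1.cardinalMk_le_trdeg
  rwa [Cardinal.mk_option, hx.cardinalMk_eq_trdeg] at h2

/-- the inequality for an extension -/
theorem abh [Algebra k F] [Algebra F E] [Algebra k E] [IsScalarTower k F E]
    {W : ValuationSubring F} {V : ValuationSubring E}
    (h : ∀ f, f ∈ W ↔ algebraMap F E f ∈ V) (hk : ∀ a, algebraMap k F a ∈ W)
    (hk' : ∀ a, algebraMap k E a ∈ V) [Algebra k (ResidueField W)] [Algebra k (ResidueField V)]
    (ha : ∀ a, algebraMap k _ a = residue W ⟨algebraMap k F a, hk a⟩)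
    (ha' : ∀ a, algebraMap k _ a = residue V ⟨algebraMap k E a, hk' a⟩) :
    trdeg k (ResidueField V) ≤ trdeg k (ResidueField W) + trdeg F E := by
  let _ : Algebra (ResidueField W) (ResidueField V) := (rm h).toAlgebra
  have _ : IsScalarTower k (ResidueField W) (ResidueField V) :=
    IsScalarTower.of_algebraMap_eq fun a => by
      rw [ha, ha']
      change _ = rm h _
      rw [rm_residue]
      exact congrArg (residue V) (Subtype.ext (IsScalarTower.algebraMap_apply k F E a))
  rw [← trdeg_add_eq k (ResidueField W) (A := ResidueField V)]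
  exact add_le_add_right (res_le (fun f hf => (h f).1 hf) fun a => rm_residue h a) _

/-- a subfield algebraic over `F[S]` has transcendence degree at most `#S` -/
theorem trdeg_le_of_alg [Algebra F E] (A : IntermediateField F E) (S : Set E)
    (h : ∀ a ∈ A, IsAlgebraic (Algebra.adjoin F S) a) : trdeg F A ≤ #S := by
  obtain ⟨t, ht⟩ := exists_isTranscendenceBasis F A
  have h1 : AlgebraicIndependent F fun a : t => ((a : A) : E) :=
    ht.1.map' (f := A.val) Subtype.val_injective
  have h2 : (AlgebraicIndependent.matroid F E).Indep (range fun a : t => ((a : A) : E)) :=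
    h1.to_subtype_range
  have h3 := h2.cardinalMk_le_cRk_of_subset
    (X := (AlgebraicIndependent.matroid F E).closure S) (by
      rintro _ ⟨a, rfl⟩
      rw [AlgebraicIndependent.matroid_closure_eq]
      exact h _ (a : A).2)
  rw [Matroid.cRk_closure, Cardinal.mk_range_eq _ h1.injective, ht.cardinalMk_eq_trdeg] at h3
  exact h3.trans (Matroid.cRk_le_cardinalMk _ _)

/-- the restriction of a discrete valuation is discrete or trivial -/
theorem dvr_comap (φ : F →+* E) (P : Place E) (hW : P.ring.comap φ ≠ ⊤) :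
    IsDiscreteValuationRing (P.ring.comap φ) := by
  classical
  have hp : IsPrincipalIdealRing (P.ring.comap φ) := ⟨fun I => by
    by_cases hI : I = ⊥
    · rw [hI]; exact bot_isPrincipal
    have hex : ∃ n : ℕ, ∃ a ∈ I, a ≠ 0 ∧ P.ord (φ a) = n := by
      obtain ⟨a, ha, h0⟩ := (Submodule.ne_bot_iff I).1 hI
      exact ⟨(P.ord (φ a)).toNat, a, ha, h0,
        (Int.toNat_of_nonneg (Pl.ord_nonneg_of_mem P a.2)).symm⟩
    obtain ⟨a, ha, h0, hn⟩ := Nat.find_spec hex
    have ha0 : (a : F) ≠ 0 := fun h => h0 (Subtype.ext h)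
    refine ⟨a, le_antisymm (fun b hb => ?_) ((Submodule.span_singleton_le_iff_mem _ _).2 ha)⟩
    by_cases hb0 : b = 0
    · rw [hb0]; exact Submodule.zero_mem _
    have hb1 : (b : F) ≠ 0 := fun h => hb0 (Subtype.ext h)
    have h1 := Nat.find_min' hex ⟨b, hb, hb0,
      (Int.toNat_of_nonneg (Pl.ord_nonneg_of_mem P b.2)).symm⟩
    have h2 := Int.toNat_of_nonneg (Pl.ord_nonneg_of_mem P (x := φ b) b.2)
    have h3 : (b : F) / a ∈ P.ring.comap φ := by
      rw [ValuationSubring.mem_comap, map_div₀, ← Pl.ord_nonneg_iff P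
        (div_ne_zero ((map_ne_zero φ).2 hb1) ((map_ne_zero φ).2 ha0)),
        Pl.ord_div P ((map_ne_zero φ).2 hb1) ((map_ne_zero φ).2 ha0)]
      omega
    exact Submodule.mem_span_singleton.2 ⟨⟨_, h3⟩, Subtype.ext (div_mul_cancel₀ _ ha0)⟩⟩
  refine { not_a_field' := fun hb => hW (eq_top_iff.2 fun f _ => ?_) }
  by_contra hf
  have hf0 : f ≠ 0 := by rintro rfl; exact hf (zero_mem _)
  have hi : f⁻¹ ∈ P.ring.comap φ := ((P.ring.comap φ).mem_or_inv_mem f).resolve_left hf
  have h1 : (⟨f⁻¹, hi⟩ : P.ring.comap φ) ∈ maximalIdeal (P.ring.comap φ) := by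
    rw [mem_maximalIdeal, mem_nonunits_iff]
    intro hu
    obtain ⟨b, hb⟩ := hu.exists_right_inv
    have h1 : f⁻¹ * b = 1 := congrArg (fun z : P.ring.comap φ => (z : F)) hb
    apply hf
    rw [← inv_inv f, ← eq_inv_of_mul_eq_one_right h1]
    exact b.2
  rw [hb, Ideal.mem_bot] at h1
  exact inv_ne_zero hf0 (congrArg Subtype.val h1)

end gen

end Vale.Agent.P287D.Pb
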