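import Vale.Agent.P287D.Pb.Bas
import Vale.Agent.P287D.Pb.Abh0

/-!
# P287D, block PB: divisorial places restrict to divisorial places or to the trivial one
-/

set_option linter.unusedSectionVars false

open Set IsLocalRing Algebra Cardinal
open Vale.Agent.P297 (Place)
open Vale.Agent.P297Z

noncomputable section

namespace Vale.Agent.P287D

variable {K K' : Type} [Field K] [Algebra ℂ K] [Field K'] [Algebra ℂ K'] {n : ℕ}

namespace Pb

theorem ff_trdeg (h : FF K n) : trdeg ℂ K = n := by
  obtain ⟨y, hy, hf⟩ := h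
  have h1 : Algebra.IsAlgebraic (IntermediateField.adjoin ℂ (range y)) K := inferInstance
  have h2 : IsTranscendenceBasis ℂ y := by
    rw [hy.isTranscendenceBasis_iff_isAlgebraic]
    exact IntermediateField.isAlgebraic_adjoin_iff_top.1 h1
  rw [← h2.cardinalMk_eq_trdeg, Cardinal.mk_fin]

theorem ff_fin (h : FF K n) : trdeg ℂ K < ℵ₀ := by
  rw [ff_trdeg h]; exact Cardinal.natCast_lt_aleph0

theorem κ_fin (h : trdeg ℂ K < ℵ₀) (P : Pl K) : trdeg ℂ P.κ < ℵ₀ := by
  have h1 : trdeg ℂ P.κ + 1 = trdeg ℂ K := P.dvl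
  exact lt_of_le_of_lt (h1 ▸ le_self_add) h

theorem ne_top {φ : K →+* K'} {P : Pl K'} (h : ¬ Trv φ P) : P.ring.comap φ ≠ ⊤ := fun ht =>
  h fun f => show f ∈ P.ring.comap φ from ht ▸ ValuationSubring.mem_top _

theorem dis_gen {L : IntermediateField ℂ K} {φ : K →+* K'} (h : Ext L φ) {ι : Type} {v : ι → K}
    (hv : LinearIndependent L v) : LinearIndependent ℂ fun i => φ (v i) := by
  rw [linearIndependent_iff_finset_linearIndependent]
  intro s
  have h1 := h.dis _ _ (hv.comp (fun j => (s.equivFin.symm j : ι))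
    (Subtype.val_injective.comp s.equivFin.symm.injective))
  exact (linearIndependent_equiv s.equivFin.symm).1 h1

theorem dis_alg {L : IntermediateField ℂ K} {φ : K →+* K'} (h : Ext L φ) {ι : Type} {v : ι → K}
    (hv : AlgebraicIndependent L v) : AlgebraicIndependent ℂ fun i => φ (v i) := by
  have h1 := dis_gen h (((MvPolynomial.basisMonomials ι L).linearIndependent).map'
    (MvPolynomial.aeval v).toLinearMap (LinearMap.ker_eq_bot.2 hv))
  rw [algebraicIndependent_iff]
  intro p hp
  rw [linearIndependent_iff'] at h1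
  ext m
  by_contra hm
  refine hm (h1 p.support (fun m => p.coeff m) ?_ m (MvPolynomial.mem_support_iff.2 hm))
  rw [← hp, MvPolynomial.aeval_def, MvPolynomial.eval₂_eq]
  refine Finset.sum_congr rfl fun d _ => ?_
  simp [MvPolynomial.aeval_monomial, Algebra.smul_def, Finsupp.prod]

theorem ext_trdeg_le {L : IntermediateField ℂ K} {φ : K →+* K'} (h : Ext L φ) :
    trdeg L K ≤ trdeg ℂ K' := by
  obtain ⟨β, x, hx⟩ := exists_isTranscendenceBasis' L K
  rw [← hx.cardinalMk_eq_trdeg]
  exact (dis_alg h hx.1).cardinalMk_le_trdeg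

end Pb

open Pb

/-- dominant maps -/
theorem ok_alg (h : trdeg ℂ K' < ℵ₀) (φ : K →ₐ[ℂ] K') : Ok (φ : K →+* K') := by
  intro P
  by_cases ht : Trv (φ : K →+* K') P
  · exact Or.inl ht
  right
  let W := P.ring.comap (φ : K →+* K')
  have hW : W ≠ ⊤ := ne_top ht
  have hk : ∀ c, algebraMap ℂ K c ∈ W := fun c => by
    change φ (algebraMap ℂ K c) ∈ P.ring
    rw [φ.commutes]; exact P.con c
  let Q : Place K := ⟨W, dvr_comap _ P.toPlace hW⟩
  refine ⟨⟨Q, hk, ?_⟩, fun _ => Iff.rfl⟩
  let _ : Algebra K K' := (φ : K →+* K').toAlgebra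
  have _ : IsScalarTower ℂ K K' := IsScalarTower.of_algebraMap_eq fun c => (φ.commutes c).symm
  let _ : Algebra ℂ (ResidueField W) := (cst Q hk).toAlgebra
  let _ : Algebra ℂ (ResidueField P.ring) := (cst P.toPlace P.con).toAlgebra
  have h1 : trdeg ℂ (ResidueField W) + 1 ≤ trdeg ℂ K := res_lt hW hk fun _ => rfl
  have h2 : trdeg ℂ (ResidueField P.ring) ≤ trdeg ℂ (ResidueField W) + trdeg K K' :=
    abh (fun _ => Iff.rfl) hk P.con (fun _ => rfl) fun _ => rfl
  have h3 : trdeg ℂ (ResidueField P.ring) + 1 = trdeg ℂ K' := P.dvl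
  have h4 : trdeg ℂ K + trdeg K K' = trdeg ℂ K' := trdeg_add_eq ℂ K
  have h5 : trdeg K K' < ℵ₀ := lt_of_le_of_lt (h4 ▸ le_add_self) h
  change trdeg ℂ (ResidueField W) + 1 = trdeg ℂ K
  refine le_antisymm h1 ((Cardinal.add_le_add_iff_of_lt_aleph0 h5).1 ?_)
  rw [h4, ← h3, add_right_comm]
  exact add_le_add_left h2 1

theorem FF.ok (h : FF K' n) (φ : K →ₐ[ℂ] K') : Ok (φ : K →+* K') := ok_alg (ff_fin h) φ

theorem ok_sub (h : trdeg ℂ K < ℵ₀) (L : IntermediateField ℂ K) : Ok (algebraMap L K) :=
  ok_alg h L.val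

theorem FF.ok_sub (h : FF K n) (L : IntermediateField ℂ K) : Ok (algebraMap L K) :=
  P287D.ok_sub (ff_fin h) L

/-- the constants of an extension -/
theorem Ext.exists_cst {L : IntermediateField ℂ K} {φ : K →+* K'} (h : Ext L φ) :
    ∃ σ : L →+* ℂ, ∀ a : L, algebraMap ℂ K' (σ a) = φ a := by
  choose σ hσ using fun a : L => h.cst a a.2
  have hi := (algebraMap ℂ K').injective
  exact ⟨{ toFun := σ
           map_one' := hi (by simp [hσ])
           map_mul' := fun a b => hi (by simp [hσ])
           map_zero' := hi (by simp [hσ])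
           map_add' := fun a b => hi (by simp [hσ]) }, hσ⟩

namespace Pb

theorem ext_core {k C F E : Type} [Field k] [Field C] [Field F] [Field E] [Algebra k F]
    [Algebra k C] [Algebra F E] [Algebra C E] [Algebra k E] [IsScalarTower k F E]
    [IsScalarTower k C E]
    (hg : Subfield.closure (range (algebraMap F E) ∪ range (algebraMap C E)) = ⊤)
    {W : ValuationSubring F} {V : ValuationSubring E} (h : ∀ f, f ∈ W ↔ algebraMap F E f ∈ V)
    (hk : ∀ a, algebraMap k F a ∈ W) (hC : ∀ a, algebraMap C E a ∈ V)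
    [Algebra k (ResidueField W)] [Algebra C (ResidueField V)]
    (ha : ∀ a, algebraMap k _ a = residue W ⟨algebraMap k F a, hk a⟩)
    (hb : ∀ a, algebraMap C _ a = residue V ⟨algebraMap C E a, hC a⟩)
    (hfin : trdeg C (ResidueField V) < ℵ₀) :
    trdeg C (ResidueField V) ≤ trdeg k (ResidueField W) := by
  obtain ⟨β, x, hx⟩ := exists_isTranscendenceBasis' C (ResidueField V)
  choose w hw using fun b => residue_surjective (x b)
  have hβ : Finite β := by
    rw [← Cardinal.lt_aleph0_iff_finite, hx.cardinalMk_eq_trdeg]; exact hfin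
  obtain ⟨B, hB⟩ := exists_isTranscendenceBasis k C
  let A : Set E → IntermediateField F E := fun S =>
    ((Subalgebra.algebraicClosure (Algebra.adjoin F S) E).restrictScalars F).toIntermediateField
      fun _ hx => IsAlgebraic.inv_iff.2 hx
  have hA : ∀ S a, a ∈ A S ↔ IsAlgebraic (Algebra.adjoin F S) a := fun _ _ => Iff.rfl
  have htop : ∀ a, a ∈ A (algebraMap C E '' B) := by
    have h1 : Subfield.closure (range (algebraMap F E) ∪ range (algebraMap C E)) ≤
        (A (algebraMap C E '' B)).toSubfield := by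
      rw [Subfield.closure_le]
      rintro _ (⟨f, rfl⟩ | ⟨c, rfl⟩)
      · exact (A _).algebraMap_mem f
      · have h2 : IsAlgebraic (Algebra.adjoin k (range ((↑) : B → C))) c := hB.isAlgebraic.1 c
        have h3 : ∀ a ∈ Algebra.adjoin k (range ((↑) : B → C)),
            algebraMap C E a ∈ Algebra.adjoin F (algebraMap C E '' B) := by
          intro a ha
          induction ha using Algebra.adjoin_induction with
          | mem a ha =>
            obtain ⟨b, rfl⟩ := ha
            exact Algebra.subset_adjoin ⟨b, b.2, rfl⟩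
          | algebraMap r =>
            rw [← IsScalarTower.algebraMap_apply, IsScalarTower.algebraMap_apply k F E]
            exact Subalgebra.algebraMap_mem _ _
          | add a b _ _ ha hb => rw [map_add]; exact add_mem ha hb
          | mul a b _ _ ha hb => rw [map_mul]; exact mul_mem ha hb
        let f : Algebra.adjoin k (range ((↑) : B → C)) →+*
            Algebra.adjoin F (algebraMap C E '' B) :=
          ((algebraMap C E).comp (Algebra.adjoin k (range ((↑) : B → C))).val.toRingHom).codRestrict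
            (Algebra.adjoin F (algebraMap C E '' B)) fun a => h3 a a.2
        refine (hA _ _).2 (h2.ringHom_of_comp_eq f (algebraMap C E) (fun a b hab => ?_) rfl)
        exact Subtype.ext ((algebraMap C E).injective (congrArg Subtype.val hab))
    rw [hg] at h1
    exact fun a => h1 (Subfield.mem_top a)
  obtain ⟨I, hIB, hI, -, hwI⟩ :=
    (AlgebraicIndependent.matroid F E).exists_subset_finite_closure_of_subset_closure
      (X := range fun b => (w b : E)) (Y := algebraMap C E '' B) (finite_range _) (by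
        rw [AlgebraicIndependent.matroid_closure_eq]
        exact fun a _ => htop a)
  rw [AlgebraicIndependent.matroid_closure_eq] at hwI
  choose b hbB hb' using fun a : I => hIB a.2
  have hbi : AlgebraicIndependent k b :=
    hB.1.comp (fun a : I => (⟨b a, hbB a⟩ : B)) fun a a' haa => Subtype.ext (by
      rw [← hb' a, ← hb' a']; exact congrArg (fun z : B => algebraMap C E z) haa)
  have hk' : ∀ a, algebraMap k E a ∈ V := fun a => by
    rw [IsScalarTower.algebraMap_apply k C E]; exact hC _
  let _ : Algebra k (ResidueField V) := ((algebraMap C _).comp (algebraMap k C)).toAlgebra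
  have _ : IsScalarTower k C (ResidueField V) := IsScalarTower.of_algebraMap_eq fun _ => rfl
  have hind := hbi.sumElim_comp hx.1
  let V0 : ValuationSubring (A I) := V.comap (algebraMap (A I) E)
  have hk0 : ∀ a, algebraMap k (A I) a ∈ V0 := fun a => hk' a
  let _ : Algebra k (ResidueField V0) :=
    ((residue V0).comp ((algebraMap k (A I)).codRestrict V0 hk0)).toAlgebra
  have h1 : trdeg k (ResidueField V0) ≤ trdeg k (ResidueField W) + trdeg F (A I) :=
    abh (V := V0) (fun f => h f) hk hk0 ha fun _ => rfl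
  have h2 : trdeg F (A I) ≤ #I := trdeg_le_of_alg _ _ fun a ha => ha
  have hV0 : ∀ f, f ∈ V0 ↔ algebraMap (A I) E f ∈ V := fun _ => Iff.rfl
  let ρ : ResidueField V0 →ₐ[k] ResidueField V := ⟨rm hV0, fun a => by
    change rm hV0 (residue V0 _) = algebraMap C _ (algebraMap k C a)
    rw [rm_residue, hb]
    exact congrArg (residue V) (Subtype.ext (IsScalarTower.algebraMap_apply k C E a))⟩
  let z : β ⊕ I → V0 := Sum.elim (fun j => ⟨⟨w j, hwI ⟨j, rfl⟩⟩, (w j).2⟩) fun a =>
    ⟨⟨a, isAlgebraic_algebraMap (⟨a, Algebra.subset_adjoin a.2⟩ : Algebra.adjoin F I)⟩, by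
      change (a : E) ∈ V
      rw [← hb' a]; exact hC _⟩
  have h3 : AlgebraicIndependent k fun j => residue V0 (z j) := by
    refine AlgebraicIndependent.of_comp ρ ?_
    have : (ρ ∘ fun j => residue V0 (z j)) = Sum.elim x (algebraMap C (ResidueField V) ∘ b) := by
      funext j
      rcases j with j | a
      · exact hw j
      · change rm hV0 (residue V0 _) = algebraMap C _ (b a)
        rw [rm_residue, hb]
        exact congrArg (residue V) (Subtype.ext (hb' a).symm)
    rw [this]
    exact hind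
  have h4 := h3.cardinalMk_le_trdeg
  rw [Cardinal.mk_sum, Cardinal.lift_id, Cardinal.lift_id, hx.cardinalMk_eq_trdeg] at h4
  exact (Cardinal.add_le_add_iff_of_lt_aleph0 hI.lt_aleph0).1
    (h4.trans (h1.trans (add_le_add_right h2 _)))

end Pb

/-- generic fibres, extension of the constants -/
theorem ok_ext (h : trdeg ℂ K' < ℵ₀) {L : IntermediateField ℂ K} {φ : K →+* K'} (hφ : Ext L φ) :
    Ok φ := by
  intro P
  by_cases ht : Trv φ P
  · exact Or.inl ht
  right
  obtain ⟨σ, hσ⟩ := hφ.exists_cst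
  let W := P.ring.comap φ
  have hW : W ≠ ⊤ := ne_top ht
  have hL : ∀ a : L, algebraMap L K a ∈ W := fun a => by
    change φ a ∈ P.ring
    rw [← hσ]; exact P.con _
  have hk : ∀ c, algebraMap ℂ K c ∈ W := fun c => hL (algebraMap ℂ L c)
  let Q : Place K := ⟨W, dvr_comap _ P.toPlace hW⟩
  refine ⟨⟨Q, hk, ?_⟩, fun _ => Iff.rfl⟩
  let _ : Algebra ℂ (ResidueField W) := (cst Q hk).toAlgebra
  let _ : Algebra L (ResidueField W) :=
    ((residue W).comp ((algebraMap L K).codRestrict W hL)).toAlgebra
  have _ : IsScalarTower ℂ L (ResidueField W) := IsScalarTower.of_algebraMap_eq fun _ => rfl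
  have h1 : trdeg L (ResidueField W) + 1 ≤ trdeg L K := res_lt hW hL fun _ => rfl
  have h2 : trdeg ℂ P.κ ≤ trdeg L (ResidueField W) := by
    let _ : Algebra K K' := φ.toAlgebra
    let _ : Algebra L ℂ := σ.toAlgebra
    have _ : IsScalarTower L ℂ K' := IsScalarTower.of_algebraMap_eq fun a => (hσ a).symm
    let _ : Algebra ℂ (ResidueField P.ring) := (cst P.toPlace P.con).toAlgebra
    exact ext_core (k := L) (C := ℂ) (F := K) (E := K') hφ.gen (W := W) (V := P.ring)
      (fun _ => Iff.rfl) hL P.con (fun _ => rfl) (fun _ => rfl) (κ_fin h P)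
  have h3 : trdeg ℂ P.κ + 1 = trdeg ℂ K' := P.dvl
  have h4 : trdeg L (ResidueField W) + 1 = trdeg L K :=
    le_antisymm h1 ((ext_trdeg_le hφ).trans (h3 ▸ add_le_add_left h2 1))
  change trdeg ℂ (ResidueField W) + 1 = trdeg ℂ K
  rw [← trdeg_add_eq ℂ L (A := ResidueField W), ← trdeg_add_eq ℂ L (A := K), add_assoc, h4]

theorem Ext.ok {L : IntermediateField ℂ K} {φ : K →+* K'} (hφ : Ext L φ) (h : FF K' n) : Ok φ :=
  ok_ext (ff_fin h) hφ

/-- isomorphisms which preserve the constants -/
theorem ext_bot_of_equiv (e : K ≃+* K') (h1 : ∀ c, e (algebraMap ℂ K c) ∈ range (algebraMap ℂ K'))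
    (h2 : ∀ c, e.symm (algebraMap ℂ K' c) ∈ range (algebraMap ℂ K)) :
    Ext (⊥ : IntermediateField ℂ K) (e : K →+* K') := by
  refine ⟨fun a ha => ?_, ?_, fun m v hv => ?_⟩
  · obtain ⟨c, rfl⟩ := IntermediateField.mem_bot.1 ha
    exact h1 c
  · exact eq_top_iff.2 fun f _ => Subfield.subset_closure (Or.inl ⟨e.symm f, by simp⟩)
  · rw [Fintype.linearIndependent_iff] at hv ⊢
    intro g hg i
    choose g' hg' using fun i => h2 (g i)
    have h3 := hv (fun i => ⟨algebraMap ℂ K (g' i), IntermediateField.algebraMap_mem _ _⟩) (by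
      apply e.injective
      rw [map_zero, ← hg, map_sum]
      refine Finset.sum_congr rfl fun i _ => ?_
      change e (algebraMap ℂ K (g' i) * v i) = _
      rw [map_mul, hg', RingEquiv.apply_symm_apply, Algebra.smul_def]
      rfl) i
    have h4 : algebraMap ℂ K (g' i) = 0 := congrArg Subtype.val h3
    rw [hg', map_eq_zero, map_eq_zero] at h4
    exact h4

theorem ok_equiv (h : trdeg ℂ K' < ℵ₀) (e : K ≃+* K')
    (h1 : ∀ c, e (algebraMap ℂ K c) ∈ range (algebraMap ℂ K'))
    (h2 : ∀ c, e.symm (algebraMap ℂ K' c) ∈ range (algebraMap ℂ K)) : Ok (e : K →+* K') :=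
  ok_ext h (ext_bot_of_equiv e h1 h2)

end Vale.Agent.P287D
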