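import Vale.Agent.P287D.Defs

/-!
# P287D, block PB: the pull back of b-divisors along a ring homomorphism (basic rules)
-/

set_option linter.unusedSectionVars false

open Set
open Vale.Agent.P297 (Place)
open Vale.Agent.P297Z

noncomputable section

namespace Vale.Agent.P287D

variable {K K' K'' : Type} [Field K] [Algebra ℂ K] [Field K'] [Algebra ℂ K'] [Field K'']
  [Algebra ℂ K'']

/-- `P` is trivial on the image of `φ` -/
def Trv (φ : K →+* K') (P : Pl K') : Prop := ∀ f, φ f ∈ P.ring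

/-- every divisorial place restricts to a divisorial place or to the trivial one -/
def Ok (φ : K →+* K') : Prop := ∀ P : Pl K', Trv φ P ∨ ∃ Q, Lies φ P Q

/-- the image of a system -/
def im (φ : K →+* K') (s : Finset K) : Finset K' := s.map ⟨φ, φ.injective⟩

namespace Pb

theorem pl_ext {P Q : Pl K} (h : P.ring = Q.ring) : P = Q := by
  obtain ⟨P, _, _⟩ := P
  obtain ⟨Q, _, _⟩ := Q
  obtain rfl : P = Q := Pl.ext' h
  rfl

theorem t_ne (P : Pl K) : P.t ≠ 0 := (Pl.exists_ord_eq_one P.toPlace).choose_spec.1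

theorem ord_t (P : Pl K) : P.ord P.t = 1 := (Pl.exists_ord_eq_one P.toPlace).choose_spec.2

theorem mem_im {φ : K →+* K'} {s : Finset K} {g : K'} : g ∈ im φ s ↔ ∃ f ∈ s, φ f = g := by
  simp [im]

theorem im_eq [DecidableEq K'] (φ : K →+* K') (s : Finset K) : im φ s = s.image φ := by
  ext g; simp [mem_im]

theorem mz_eq_zero (P : Pl K) {s : Finset K} (h : ∀ f ∈ s, f = 0) : P.mz s = 0 := by
  have : {f | f ∈ s ∧ f ≠ 0} = (∅ : Set K) := by
    ext f; simpa using h f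
  simp [Pl.mz, this]

theorem le_mz (P : Pl K) {s : Finset K} {f : K} (hf : f ∈ s) (h0 : f ≠ 0) :
    -P.ord f ≤ P.mz s :=
  le_csSup (((s.finite_toSet.subset fun _ h => h.1).image _).bddAbove) ⟨f, ⟨hf, h0⟩, rfl⟩

theorem mz_att (P : Pl K) {s : Finset K} (h : ∃ f ∈ s, f ≠ 0) :
    ∃ f ∈ s, f ≠ 0 ∧ P.mz s = -P.ord f := by
  obtain ⟨f, hf, h0⟩ := h
  have hne : ((fun f => -P.ord f) '' {f | f ∈ s ∧ f ≠ 0}).Nonempty := ⟨_, f, ⟨hf, h0⟩, rfl⟩
  obtain ⟨g, hg, he⟩ := hne.csSup_mem ((s.finite_toSet.subset fun _ h => h.1).image _)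
  exact ⟨g, hg.1, hg.2, he.symm⟩

theorem mz_eq (P : Pl K) {s : Finset K} {f : K} (hf : f ∈ s) (h0 : f ≠ 0)
    (h : ∀ g ∈ s, g ≠ 0 → P.ord f ≤ P.ord g) : P.mz s = -P.ord f := by
  obtain ⟨g, hg, hg0, he⟩ := mz_att P ⟨f, hf, h0⟩
  have h1 := le_mz P hf h0
  have h2 := h g hg hg0
  omega

end Pb

open Pb

section lies

variable {φ : K →+* K'} {P : Pl K'} {Q Q' : Pl K}

theorem Lies.uniq (h : Lies φ P Q) (h' : Lies φ P Q') : Q = Q' :=
  pl_ext (ValuationSubring.ext _ _ fun f => (h f).trans (h' f).symm)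

theorem Lies.not_trv (h : Lies φ P Q) : ¬ Trv φ P := fun ht =>
  Pl.ring_ne_top Q.toPlace (ValuationSubring.ext _ _ fun f =>
    ⟨fun _ => ValuationSubring.mem_top _, fun _ => (h f).2 (ht f)⟩)

theorem Trv.not_lies (h : Trv φ P) : ¬ ∃ Q, Lies φ P Q := fun ⟨_, hQ⟩ => hQ.not_trv h

theorem Trv.ord (h : Trv φ P) (f : K) : P.ord (φ f) = 0 :=
  Pl.ord_unit _ (h f) (by rw [← map_inv₀]; exact h _)

theorem Lies.e_pos (h : Lies φ P Q) : 0 < P.ord (φ Q.t) := by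
  apply Pl.ord_pos_of_inv_notMem
  rw [← map_inv₀, ← h, ← Pl.ord_nonneg_iff _ (inv_ne_zero (t_ne Q)), Pl.ord_inv, ord_t]
  omega

/-- the order formula -/
theorem Lies.ord (h : Lies φ P Q) (f : K) : P.ord (φ f) = P.ord (φ Q.t) * Q.ord f := by
  by_cases hf : f = 0
  · simp [hf]
  have ht := t_ne Q
  have hz : Q.t ^ Q.ord f ≠ 0 := zpow_ne_zero _ ht
  have hu : Q.ord (f / Q.t ^ Q.ord f) = 0 := by
    rw [Pl.ord_div _ hf hz, Pl.ord_zpow, ord_t]; ring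
  obtain ⟨h1, h2⟩ := (Pl.ord_eq_zero_iff _ (div_ne_zero hf hz)).1 hu
  have h3 : P.ord (φ (f / Q.t ^ Q.ord f)) = 0 :=
    Pl.ord_unit _ ((h _).1 h1) (by rw [← map_inv₀]; exact (h _).1 h2)
  rw [map_div₀, Pl.ord_div _ ((map_ne_zero φ).2 hf) ((map_ne_zero φ).2 hz), map_zpow₀,
    Pl.ord_zpow] at h3
  linarith

theorem Lies.ord_pos_iff (h : Lies φ P Q) (f : K) : 0 < P.ord (φ f) ↔ 0 < Q.ord f := by
  rw [h.ord, mul_pos_iff_of_pos_left h.e_pos]

theorem Lies.mz (h : Lies φ P Q) (s : Finset K) :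
    P.mz (im φ s) = P.ord (φ Q.t) * Q.mz s := by
  by_cases hs : ∃ f ∈ s, f ≠ 0
  · obtain ⟨f, hf, h0, he⟩ := mz_att Q hs
    rw [mz_eq P (mem_im.2 ⟨f, hf, rfl⟩) ((map_ne_zero φ).2 h0), he, h.ord f]
    · ring
    · intro g hg hg0
      obtain ⟨g, hgs, rfl⟩ := mem_im.1 hg
      have h1 := le_mz Q hgs ((map_ne_zero φ).1 hg0)
      rw [h.ord f, h.ord g]
      exact mul_le_mul_of_nonneg_left (by omega) h.e_pos.le
  · push Not at hs
    rw [mz_eq_zero Q hs, mz_eq_zero P, mul_zero]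
    intro g hg
    obtain ⟨g, hgs, rfl⟩ := mem_im.1 hg
    rw [hs g hgs, map_zero]

theorem Trv.mz (h : Trv φ P) (s : Finset K) : P.mz (im φ s) = 0 := by
  by_cases hs : ∃ f ∈ im φ s, f ≠ 0
  · obtain ⟨g, hg, -, he⟩ := mz_att P hs
    obtain ⟨g, -, rfl⟩ := mem_im.1 hg
    rw [he, h.ord, neg_zero]
  · push Not at hs
    exact mz_eq_zero P hs

theorem Lies.pb (h : Lies φ P Q) (β : BD K) : pb φ β P = P.ord (φ Q.t) * β Q := by
  have hex : ∃ Q, Lies φ P Q := ⟨Q, h⟩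
  have he : hex.choose = Q := hex.choose_spec.uniq h
  simp only [P287D.pb, dif_pos hex, he]

theorem pb_of_not (h : ¬ ∃ Q, Lies φ P Q) (β : BD K) : pb φ β P = 0 := by
  simp only [pb, dif_neg h]

theorem Trv.pb (h : Trv φ P) (β : BD K) : pb φ β P = 0 := pb_of_not h.not_lies β

theorem Lies.comp {ψ : K' →+* K''} {R : Pl K''} (h' : Lies ψ R P) (h : Lies φ P Q) :
    Lies (ψ.comp φ) R Q := fun f => (h f).trans (h' _)

theorem Trv.comp {ψ : K' →+* K''} {R : Pl K''} (h' : Trv ψ R) (φ : K →+* K') :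
    Trv (ψ.comp φ) R := fun _ => h' _

theorem Lies.comp_trv {ψ : K' →+* K''} {R : Pl K''} (h' : Lies ψ R P) (h : Trv φ P) :
    Trv (ψ.comp φ) R := fun f => (h' _).1 (h f)

theorem Lies.of_comp {ψ : K' →+* K''} {R : Pl K''} (h' : Lies ψ R P)
    (h : Lies (ψ.comp φ) R Q) : Lies φ P Q := fun f => (h f).trans (h' _).symm

theorem lies_id (P : Pl K) : Lies (RingHom.id K) P P := fun _ => Iff.rfl

end lies

section lin

variable (φ : K →+* K')

/-- the pull back as a linear map -/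
def pbL : BD K →ₗ[ℝ] BD K' where
  toFun := pb φ
  map_add' a b := by
    funext P
    by_cases h : ∃ Q, Lies φ P Q
    · obtain ⟨Q, h⟩ := h
      simp only [Pi.add_apply, h.pb]; ring
    · simp only [Pi.add_apply, pb_of_not h, add_zero]
  map_smul' c a := by
    funext P
    by_cases h : ∃ Q, Lies φ P Q
    · obtain ⟨Q, h⟩ := h
      simp only [Pi.smul_apply, h.pb, smul_eq_mul, RingHom.id_apply]; ring
    · simp only [Pi.smul_apply, pb_of_not h, smul_zero]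

theorem pbL_apply (β : BD K) : pbL φ β = pb φ β := rfl

theorem pb_add (a b : BD K) : pb φ (a + b) = pb φ a + pb φ b := (pbL φ).map_add a b

theorem pb_sub (a b : BD K) : pb φ (a - b) = pb φ a - pb φ b := (pbL φ).map_sub a b

theorem pb_neg (a : BD K) : pb φ (-a) = -pb φ a := (pbL φ).map_neg a

theorem pb_zero : pb φ 0 = 0 := (pbL φ).map_zero

theorem pb_smul (c : ℝ) (a : BD K) : pb φ (c • a) = c • pb φ a := (pbL φ).map_smul c a

theorem pb_sum {ι : Type*} (s : Finset ι) (a : ι → BD K) :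
    pb φ (∑ i ∈ s, a i) = ∑ i ∈ s, pb φ (a i) := map_sum (pbL φ) a s

theorem pb_nonneg {a : BD K} (h : 0 ≤ a) : 0 ≤ pb φ a := by
  intro P
  by_cases hP : ∃ Q, Lies φ P Q
  · obtain ⟨Q, hP⟩ := hP
    rw [hP.pb]
    exact mul_nonneg (Int.cast_nonneg hP.e_pos.le) (h Q)
  · rw [pb_of_not hP]; exact le_rfl

theorem pb_mono {a b : BD K} (h : a ≤ b) : pb φ a ≤ pb φ b := by
  have := pb_nonneg φ (sub_nonneg.2 h)
  rwa [pb_sub, sub_nonneg] at this

theorem pb_id (β : BD K) : pb (RingHom.id K) β = β := by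
  funext P
  rw [(lies_id P).pb, RingHom.id_apply, ord_t]; simp

end lin

namespace Ok

variable {φ : K →+* K'} {ψ : K' →+* K''}

theorem id : Ok (RingHom.id K) := fun P => Or.inr ⟨P, lies_id P⟩

theorem comp (h' : Ok ψ) (h : Ok φ) : Ok (ψ.comp φ) := by
  intro R
  rcases h' R with hR | ⟨P, hR⟩
  · exact Or.inl (hR.comp φ)
  · rcases h P with hP | ⟨Q, hP⟩
    · exact Or.inl (hR.comp_trv hP)
    · exact Or.inr ⟨Q, hR.comp hP⟩

theorem pb_comp (h' : Ok ψ) (φ : K →+* K') (β : BD K) :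
    pb (ψ.comp φ) β = pb ψ (pb φ β) := by
  funext R
  rcases h' R with hR | ⟨P, hR⟩
  · rw [hR.pb, (hR.comp φ).pb]
  · rw [hR.pb]
    by_cases h : ∃ Q, Lies φ P Q
    · obtain ⟨Q, hP⟩ := h
      rw [(hR.comp hP).pb, hP.pb, RingHom.comp_apply, hR.ord]
      push_cast; ring
    · rw [pb_of_not h, pb_of_not, mul_zero]
      rintro ⟨Q, hQ⟩
      exact h ⟨Q, hR.of_comp hQ⟩

theorem pb_dv (h : Ok φ) (f : K) : pb φ (dv f) = dv (φ f) := by
  funext P
  rcases h P with hP | ⟨Q, hP⟩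
  · simp only [hP.pb, dv, hP.ord, Int.cast_zero]
  · simp only [hP.pb, dv, hP.ord f, Int.cast_mul]

theorem pb_mx (h : Ok φ) (s : Finset K) : pb φ (mx s) = mx (im φ s) := by
  funext P
  rcases h P with hP | ⟨Q, hP⟩
  · simp only [hP.pb, mx, hP.mz, Int.cast_zero]
  · simp only [hP.pb, mx, hP.mz s, Int.cast_mul]

theorem pb_cmb (h : Ok φ) (l : Finset K →₀ ℝ) : pb φ (cmb l) = cmb (l.mapDomain (im φ)) := by
  unfold cmb
  rw [Finsupp.sum_mapDomain_index (by simp) (by intros; rw [add_smul])]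
  simp only [Finsupp.sum, pb_sum, pb_smul, h.pb_mx]

theorem car (h : Ok φ) {β : BD K} (hβ : β ∈ Car K) : pb φ β ∈ Car K' := by
  have : Car K ≤ (Car K').comap (pbL φ) := Submodule.span_le.2 (by
    rintro _ ⟨s, rfl⟩
    change pb φ (mx s) ∈ Car K'
    rw [h.pb_mx]
    exact Submodule.subset_span ⟨_, rfl⟩)
  exact this hβ

theorem carZ (h : Ok φ) {β : BD K} (hβ : β ∈ CarZ K) : pb φ β ∈ CarZ K' := by
  have : CarZ K ≤ (CarZ K').comap (pbL φ).toAddMonoidHom := (AddSubgroup.closure_le _).2 (by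
    rintro _ ⟨s, rfl⟩
    change pb φ (mx s) ∈ CarZ K'
    rw [h.pb_mx]
    exact AddSubgroup.subset_closure ⟨_, rfl⟩)
  exact this hβ

theorem carQ (h : Ok φ) {β : BD K} (hβ : CarQ β) : CarQ (pb φ β) := by
  obtain ⟨m, hm, hβ⟩ := hβ
  exact ⟨m, hm, by rw [← pb_smul]; exact h.carZ hβ⟩

theorem prn (h : Ok φ) {β : BD K} (hβ : β ∈ Prn K) : pb φ β ∈ Prn K' := by
  have : Prn K ≤ (Prn K').comap (pbL φ) := Submodule.span_le.2 (by
    rintro _ ⟨s, rfl⟩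
    change pb φ (dv s) ∈ Prn K'
    rw [h.pb_dv]
    exact Submodule.subset_span ⟨_, rfl⟩)
  exact this hβ

theorem sec (h : Ok φ) {β : BD K} {f : K} (hf : Sec β f) : Sec (pb φ β) (φ f) := by
  rcases hf with rfl | hf
  · exact Or.inl (map_zero φ)
  · right
    rw [← h.pb_dv, ← pb_add]
    exact pb_nonneg φ hf

theorem rep (h : Ok φ) {β G : BD K} (hG : Rep β G) : Rep (pb φ β) (pb φ G) :=
  ⟨pb_nonneg φ hG.1, by rw [← pb_sub]; exact h.prn hG.2⟩

theorem eff (h : Ok φ) {β : BD K} (hβ : Eff β) : Eff (pb φ β) := by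
  obtain ⟨G, hG⟩ := hβ
  exact ⟨_, h.rep hG⟩

theorem smp (h : Ok φ) {β : BD K} (hβ : Smp β) : Smp (pb φ β) := by
  obtain ⟨l, hl, rfl⟩ := hβ
  exact ⟨_, Finsupp.mapDomain_nonneg hl, h.pb_cmb l⟩

theorem nef (h : Ok φ) {β : BD K} (hβ : Nef β) : Nef (pb φ β) := by
  obtain ⟨s, hs⟩ := hβ
  refine ⟨im φ s, fun ε hε => ?_⟩
  rw [← h.pb_mx, ← pb_smul, ← pb_add]
  exact h.smp (hs ε hε)

theorem psef (h : Ok φ) {β : BD K} (hβ : Psef β) : Psef (pb φ β) := by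
  obtain ⟨s, hs⟩ := hβ
  refine ⟨im φ s, fun ε hε => ?_⟩
  rw [← h.pb_mx, ← pb_smul, ← pb_add]
  exact h.eff (hs ε hε)

theorem num (h : Ok φ) {β : BD K} (hβ : Num β) : Num (pb φ β) :=
  ⟨h.nef hβ.1, by rw [← pb_neg]; exact h.nef hβ.2⟩

theorem dsc (h : Ok φ) {Λ β : BD K} (hβ : Dsc Λ β) : Dsc (pb φ Λ) (pb φ β) := by
  obtain ⟨ε, hε, h1, h2⟩ := hβ
  refine ⟨ε, hε, ?_, ?_⟩
  · rw [← pb_smul, ← pb_add]; exact h.smp h1
  · rw [← pb_smul, ← pb_sub]; exact h.smp h2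

theorem ampOn (h : Ok φ) {Λ β : BD K} (hβ : AmpOn Λ β) : AmpOn (pb φ Λ) (pb φ β) := by
  obtain ⟨h1, ε, hε, h2⟩ := hβ
  exact ⟨h.dsc h1, ε, hε, by rw [← pb_smul, ← pb_sub]; exact h.smp h2⟩

end Ok

end Vale.Agent.P287D
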