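import Vale.Agent.P287D.Pb.Gd
import Vale.Agent.P287D.Gf.Rs

/-!
# P287D, block PB: residue maps, the restriction of a pull back
-/

set_option linter.unusedSectionVars false

open Set Algebra Cardinal
open Vale.Agent.P297Z

noncomputable section

namespace Vale.Agent.P287D

open Pb Gx

variable {K K' : Type} [Field K] [Algebra ℂ K] [Field K'] [Algebra ℂ K'] {n m : ℕ}
  {φ : K →+* K'} {P : Pl K'} {Q : Pl K}

/-- the map of residue fields -/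
def Lies.κ (h : Lies φ P Q) : Q.κ →+* P.κ := rm h

theorem Lies.isRd (h : Lies φ P Q) : IsRd φ P Q h.κ := fun f hf => by
  rw [rd_of Q hf, rd_of P ((h f).1 hf)]
  rfl

theorem Pb.rd_sur (P : Pl K) (a : P.κ) : ∃ f ∈ P.ring, P.rd f = a := by
  obtain ⟨f, rfl⟩ := IsLocalRing.residue_surjective (R := P.ring) a
  exact ⟨f, f.2, rd_of P f.2⟩

theorem IsRd.uniq {ρ ρ' : Q.κ →+* P.κ} (h : IsRd φ P Q ρ) (h' : IsRd φ P Q ρ') : ρ = ρ' :=
  RingHom.ext fun a => by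
    obtain ⟨f, hf, rfl⟩ := rd_sur Q a
    rw [h f hf, h' f hf]

theorem IsRd.cst {ρ : Q.κ →+* P.κ} (h : IsRd φ P Q ρ) (hc : Cst φ) : Cst ρ := fun c => by
  obtain ⟨d, hd⟩ := hc c
  exact ⟨d, by rw [← rd_cst Q, h _ (Q.con c), ← hd, rd_cst]⟩

theorem Pb.hor_cst {ρ : K →+* P.κ} (h : ∀ f, ρ f = P.rd (φ f)) (hc : Cst φ) : Cst ρ := fun c => by
  obtain ⟨d, hd⟩ := hc c
  exact ⟨d, by rw [h, ← hd, rd_cst]⟩

/-- the residue of the unit which compares the uniformizers -/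
def Pb.un (φ : K →+* K') (P : Pl K') (Q : Pl K) : P.κ := P.rd (φ Q.t / P.t ^ P.ord (φ Q.t))

theorem Pb.un_aux (φ : K →+* K') (P : Pl K') (Q : Pl K) :
    φ Q.t / P.t ^ P.ord (φ Q.t) ∈ P.ring ∧ un φ P Q ≠ 0 := by
  have h0 : φ Q.t ≠ 0 := (map_ne_zero φ).2 Q.t_ne
  have h1 : P.t ^ P.ord (φ Q.t) ≠ 0 := zpow_ne_zero _ P.t_ne
  exact rd_ne P (div_ne_zero h0 h1) (by rw [Pl.ord_div _ h0 h1, P.ord_t_zpow, sub_self])

theorem Pb.rd_zpow (P : Pl K) {f : K} (h0 : f ≠ 0) (h : P.ord f = 0) (k : ℤ) :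
    P.rd (f ^ k) = P.rd f ^ k := by
  have hp : ∀ j : ℕ, P.rd (f ^ j) = P.rd f ^ j := fun j => by
    induction j with
    | zero => rw [pow_zero, pow_zero, ← map_one (algebraMap ℂ K), rd_cst, map_one]
    | succ j ih =>
      rw [pow_succ, pow_succ, rd_mul P (pow_mem (rd_ne P h0 h).1 j) (rd_ne P h0 h).1, ih]
  obtain ⟨j, rfl | rfl⟩ := Int.eq_nat_or_neg k
  · rw [zpow_natCast, zpow_natCast, hp]
  · rw [zpow_neg, zpow_neg, zpow_natCast, zpow_natCast, ← hp]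
    have h1 : f ^ j ≠ 0 := pow_ne_zero j h0
    obtain ⟨a, b⟩ := (Pl.ord_eq_zero_iff P.toPlace h1).1 (by rw [Pl.ord_pow, h, mul_zero])
    refine eq_inv_of_mul_eq_one_right ?_
    rw [← rd_mul P a b, mul_inv_cancel₀ h1, ← map_one (algebraMap ℂ K), rd_cst, map_one]

theorem Lies.mx_rs (h : Lies φ P Q) {ψ : Q.κ →+* P.κ} (hψ : IsRd φ P Q ψ) {s : Finset K}
    (hs : Nz s) : mx (P.rs (im φ s)) = mx (im ψ (Q.rs s)) + (Q.mz s : ℝ) • dv (un φ P Q) := by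
  classical
  obtain ⟨u, w⟩ := un_aux φ P Q
  have h0 : φ Q.t ≠ 0 := (map_ne_zero φ).2 Q.t_ne
  have h1 : P.t ^ P.ord (φ Q.t) ≠ 0 := zpow_ne_zero _ P.t_ne
  have ho : P.ord (φ Q.t / P.t ^ P.ord (φ Q.t)) = 0 := by
    rw [Pl.ord_div _ h0 h1, P.ord_t_zpow, sub_self]
  have e : im ψ (Q.rs s) = (P.rs (im φ s)).image (· * un φ P Q ^ Q.mz s) := by
    rw [im_eq, Pl.rs, Pl.rs, Finset.image_image, Finset.image_image]
    refine Eq.trans ?_ (congrArg (Finset.image _) (im_eq φ s)).symm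
    rw [Finset.image_image]
    refine Finset.image_congr fun f hf => ?_
    simp only [Function.comp]
    rw [hψ _ (Q.mem_ring_mz (Submodule.subset_span hf)), un, ← rd_zpow P (div_ne_zero h0 h1) ho,
      ← rd_mul P (P.mem_ring_mz (Submodule.subset_span (mem_im.2 ⟨f, hf, rfl⟩)))
        (rd_ne P (zpow_ne_zero _ (div_ne_zero h0 h1)) (by rw [Pl.ord_zpow, ho, mul_zero])).1,
      map_mul, map_zpow₀, h.mz, div_zpow, ← zpow_mul, mul_assoc,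
      mul_div_cancel₀ _ (zpow_ne_zero _ P.t_ne)]
  have z : Nz (P.rs (im φ s)) := by
    obtain ⟨f, hf, f0⟩ := hs
    obtain ⟨g, hg, g0, k⟩ := P.exists_mz (s := im φ s)
      ⟨φ f, mem_im.2 ⟨f, hf, rfl⟩, (map_ne_zero φ).2 f0⟩
    exact ⟨_, Finset.mem_image_of_mem _ hg, (rd_ne P (mul_ne_zero g0 (zpow_ne_zero _ P.t_ne))
      (by rw [P.ord_mul_t g0, k, add_neg_cancel])).2⟩
  rw [e, mx_image_mul z (zpow_ne_zero _ w), dv_zpow, sub_add_cancel]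

/-- the restriction of a pull back to a place over a place -/
theorem Pb.res_lies (hR : RES) (hK : FF K (n + 1)) (hK' : FF K' (m + 1)) (ok : Ok φ)
    {ψ : Q.κ →+* P.κ} (h : Lies φ P Q) (hψ : IsRd φ P Q ψ) (ok' : Ok ψ) {β : BD K}
    (hβ : β ∈ Car K) : res P (pb φ β) = pb ψ (res Q β) + β Q • dv (un φ P Q) := by
  refine Car.ind (p := fun β => res P (pb φ β) = pb ψ (res Q β) + β Q • dv (un φ P Q)) hβ
    (fun s hs => ?_) (fun a b x y u v => ?_) (fun c a x u => ?_)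
  · rw [ok.pb_mx, hR.sys m K' hK', hR.sys n K hK, ok'.pb_mx]
    exact h.mx_rs hψ hs
  · rw [pb_add, hR.add m K' hK' P _ (ok.car x) _ (ok.car y), hR.add n K hK Q a x b y, pb_add, u, v,
      Pi.add_apply, add_smul, add_add_add_comm]
  · rw [pb_smul, hR.smul m K' hK' P c _ (ok.car x), hR.smul n K hK Q c a x, pb_smul, u,
      Pi.smul_apply, smul_add, smul_smul, smul_eq_mul]

/-- the restriction of a pull back to a horizontal place -/
theorem Pb.res_trv (hR : RES) (hK' : FF K' (m + 1)) (ok : Ok φ) (h : Trv φ P) {ρ : K →+* P.κ}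
    (hρ : ∀ f, ρ f = P.rd (φ f)) (ok' : Ok ρ) {β : BD K} (hβ : β ∈ Car K) :
    res P (pb φ β) = pb ρ β := by
  classical
  refine Car.ind (p := fun β => res P (pb φ β) = pb ρ β) hβ
    (fun s _ => ?_) (fun a b x y u v => ?_) (fun c a x u => ?_)
  · rw [ok.pb_mx, hR.sys m K' hK', ok'.pb_mx, Pl.rs, h.mz, im_eq ρ]
    refine congrArg mx (Eq.trans (congrArg (Finset.image _) (im_eq φ s)) ?_)
    rw [Finset.image_image]
    refine Finset.image_congr fun f _ => ?_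
    simp only [Function.comp, zpow_zero, mul_one, hρ]
  · rw [pb_add, hR.add m K' hK' P _ (ok.car x) _ (ok.car y), u, v, pb_add]
  · rw [pb_smul, hR.smul m K' hK' P c _ (ok.car x), u, pb_smul]

theorem IsRd.ok {ρ : Q.κ →+* P.κ} (h : IsRd φ P Q ρ) (hc : Cst φ) (hK : FF K n) (hK' : FF K' m) :
    Ok ρ := ok_cst (κ_fin (ff_fin hK) Q) (κ_fin (ff_fin hK') P) (h.cst hc)

theorem Pb.hor_ok {ρ : K →+* P.κ} (h : ∀ f, ρ f = P.rd (φ f)) (hc : Cst φ) (hK : FF K n)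
    (hK' : FF K' m) : Ok ρ := ok_cst (ff_fin hK) (κ_fin (ff_fin hK') P) (hor_cst h hc)

theorem Cst.res_lies (hc : Cst φ) (hR : RES) (hK : FF K (n + 1)) (hK' : FF K' (m + 1))
    {ψ : Q.κ →+* P.κ} (h : Lies φ P Q) (hψ : IsRd φ P Q ψ) {β : BD K} (hβ : β ∈ Car K) :
    res P (pb φ β) - pb ψ (res Q β) ∈ Prn P.κ ∧ (β Q = 0 → res P (pb φ β) = pb ψ (res Q β)) := by
  rw [Pb.res_lies hR hK hK' (hc.ok hK hK') h hψ (hψ.ok hc hK hK') hβ]
  exact ⟨by rw [add_sub_cancel_left]; exact Submodule.smul_mem _ _ (dv_mem_Prn _),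
    fun e => by rw [e, zero_smul, add_zero]⟩

theorem Cst.res_trv (hc : Cst φ) (hR : RES) (hK : FF K n) (hK' : FF K' (m + 1)) (h : Trv φ P)
    {ρ : K →+* P.κ} (hρ : ∀ f, ρ f = P.rd (φ f)) {β : BD K} (hβ : β ∈ Car K) :
    res P (pb φ β) = pb ρ β :=
  Pb.res_trv hR hK' (hc.ok hK hK') h hρ (hor_ok hρ hc hK hK') hβ

theorem pb_lies : ∀ (n m : ℕ), ForH fun K K' _ _ _ _ φ => FF K n → FF K' m →
    (∀ c, φ (algebraMap ℂ K c) = algebraMap ℂ K' c) → ∀ P : Pl K',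
      (∀ f, φ f ∈ P.ring) ∨ ∃ Q, Lies φ P Q :=
  fun _ _ _ _ _ _ _ _ _ h h' hc => (Cst.of_lin hc).ok h h'

theorem pb_rd : ForH fun _ _ _ _ _ _ φ => ∀ P Q, Lies φ P Q → ∃ ρ, IsRd φ P Q ρ :=
  fun _ _ _ _ _ _ _ _ _ h => ⟨_, h.isRd⟩

theorem pb_rst (hR : RES) : ∀ (n m : ℕ), ForH fun K K' _ _ _ _ φ => FF K (n + 1) →
    FF K' (m + 1) → (∀ c, φ (algebraMap ℂ K c) = algebraMap ℂ K' c) → ∀ P Q ρ, Lies φ P Q →
      IsRd φ P Q ρ → ∀ β ∈ Car K, res P (pb φ β) - pb ρ (res Q β) ∈ Prn P.κ ∧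
        (β Q = 0 → res P (pb φ β) = pb ρ (res Q β)) :=
  fun _ _ _ _ _ _ _ _ _ h h' hc _ _ _ a b _ c => (Cst.of_lin hc).res_lies hR h h' a b c

theorem pb_hor (hR : RES) : ∀ (n m : ℕ), ForH fun K K' _ _ _ _ φ => FF K n → FF K' (m + 1) →
    (∀ c, φ (algebraMap ℂ K c) = algebraMap ℂ K' c) → ∀ (P : Pl K') (ρ : K →+* P.κ),
      (∀ f, φ f ∈ P.ring) → (∀ f, ρ f = P.rd (φ f)) → ∀ β ∈ Car K, res P (pb φ β) = pb ρ β :=
  fun _ _ _ _ _ _ _ _ _ h h' hc _ _ a b _ c => (Cst.of_lin hc).res_trv hR h h' a b c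

end Vale.Agent.P287D
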