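import Vale.Agent.P287D.Pb.Gau
import Vale.Agent.P287D.Gm.Ffs
import Vale.Agent.P298.H416.Fund2

/-!
# P287D, block PB: places above a place
-/

set_option linter.unusedSectionVars false

open Set IsLocalRing Algebra Cardinal
open Vale.Agent.P297 (Place)
open Vale.Agent.P297Z
open Vale.Agent.P298.H416 (NOrd Ovr rdeg exists_fund ovr_finite')

noncomputable section

namespace Vale.Agent.P287D

open Pb Gx

/-- the degree of a map of fields -/
def Pb.rk {A B : Type} [Field A] [Field B] (ρ : A →+* B) : ℕ :=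
  letI := ρ.toAlgebra
  Module.finrank A B

variable {K K' : Type} [Field K] [Algebra ℂ K] [Field K'] [Algebra ℂ K'] {n m : ℕ}

open Classical in
/-- the residue degree -/
def Pb.fd (φ : K →+* K') (P : Pl K') (Q : Pl K) : ℕ := if h : Lies φ P Q then rk h.κ else 0

theorem Lies.fd {φ : K →+* K'} {P : Pl K'} {Q : Pl K} (h : Lies φ P Q) : fd φ P Q = rk h.κ :=
  dif_pos h

theorem Pb.nord {F : Type} [Field F] (P : Place F) : NOrd P.ring P.ord where
  zero := Pl.ord_zero P
  mul _ _ := Pl.ord_mul P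
  add _ _ := Pl.min_ord_le_add P
  mem x := ⟨fun h => Or.inr (Pl.ord_nonneg_of_mem P h), fun h => by
    by_cases e : x = 0
    · rw [e]; exact zero_mem _
    · exact (Pl.ord_nonneg_iff P e).1 (h.resolve_left e)⟩
  one := let ⟨x, _, h⟩ := Pl.exists_ord_eq_one P; ⟨x, h⟩

section fin

variable [Algebra K K'] [IsScalarTower ℂ K K'] [FiniteDimensional K K'] (Q : Pl K)

/-- the valuation ring of a place above -/
def Pb.ov (P : {P : Pl K' // Lies (algebraMap K K') P Q}) : Ovr Q.ring K' :=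
  ⟨P.1.ring, ValuationSubring.ext _ _ fun f => (P.2 f).symm⟩

theorem Pb.ov_inj : Function.Injective (ov (K' := K') Q) := fun _ _ h =>
  Subtype.ext (pl_ext (congrArg Ovr.val h))

theorem Pb.fund0 : (Finite (Ovr Q.ring K')) ∧ Function.Surjective (ov (K' := K') Q) ∧
    ∀ [Fintype {P : Pl K' // Lies (algebraMap K K') P Q}],
      ∑ P : {P : Pl K' // Lies (algebraMap K K') P Q},
        P.1.ord (algebraMap K K' Q.t) * fd (algebraMap K K') P.1 Q = Module.finrank K K' := by
  have : CharZero K := charZero_of_injective_algebraMap (algebraMap ℂ K).injective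
  have hf := ovr_finite' K' (nord Q.toPlace)
  let _ := Fintype.ofFinite (Ovr Q.ring K')
  obtain ⟨e, he, hs⟩ := exists_fund K' (nord Q.toPlace)
  have su : Function.Surjective (ov (K' := K') Q) := fun O => by
    obtain ⟨-, v, hv, -⟩ := he O
    have h : ∀ f, f ∈ Q.ring ↔ algebraMap K K' f ∈ O.1 := fun f =>
      (SetLike.ext_iff.1 O.2 f).symm
    obtain ⟨R, hR⟩ := dvl_of Q ⟨O.1, hv.dvr⟩ h (by rw [trdeg_eq_zero]; exact zero_le)
    have hR' : R.ring = O.1 := congrArg Place.ring hR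
    exact ⟨⟨R, fun f => hR' ▸ h f⟩, Ovr.ext hR'⟩
  refine ⟨hf, su, ?_⟩
  intro _
  rw [← hs, ← (Equiv.ofBijective _ ⟨ov_inj Q, su⟩).sum_comp]
  push_cast
  refine Finset.sum_congr rfl fun P _ => ?_
  obtain ⟨-, v, hv, h1⟩ := he (ov Q P)
  have h2 : v = P.1.ord := hv.unique (nord P.1.toPlace)
  have h3 := h1 Q.t
  rw [h2, Q.ord_t, mul_one] at h3
  rw [h3, P.2.fd]
  rfl

theorem Pb.fin_above : {P : Pl K' | Lies (algebraMap K K') P Q}.Finite :=
  haveI := (fund0 (K' := K') Q).1
  Finite.of_injective _ (ov_inj Q)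

/-- **the fundamental identity** -/
theorem Pb.fund : ∑ P ∈ (fin_above (K' := K') Q).toFinset,
    P.ord (algebraMap K K' Q.t) * fd (algebraMap K K') P Q = Module.finrank K K' := by
  have : Finite {P : Pl K' // Lies (algebraMap K K') P Q} := fin_above Q
  let _ := Fintype.ofFinite {P : Pl K' // Lies (algebraMap K K') P Q}
  rw [← (fund0 (K' := K') Q).2.2]
  exact Finset.sum_subtype _ (fun _ => Finite.mem_toFinset _) _

theorem Pb.up_fin : ∃ P : Pl K', Lies (algebraMap K K') P Q := by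
  by_contra h
  have h1 := fund (K' := K') Q
  rw [Finset.sum_eq_zero fun P hP => (h ⟨P, (fin_above Q).mem_toFinset.1 hP⟩).elim] at h1
  exact Module.finrank_pos.ne (by exact_mod_cast h1)

theorem Pb.not_trv (P : Pl K') : ¬ Trv (algebraMap K K') P := fun h => by
  refine Pl.ring_ne_top P.toPlace (eq_top_iff.2 fun x _ => ?_)
  obtain ⟨p, hp, hpx⟩ : IsIntegral K x := Algebra.IsIntegral.isIntegral x
  have hint : IsIntegral P.ring x :=
    ⟨p.map ((algebraMap K K').codRestrict _ h), hp.map _, by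
      rw [Polynomial.eval₂_map]; exact hpx⟩
  obtain ⟨y, hy⟩ := IsIntegrallyClosed.isIntegral_iff.1 hint
  exact hy ▸ y.2

end fin

section up

variable [Algebra K K'] [IsScalarTower ℂ K K']

theorem Pb.fin_of_ff (h : FF K n) (h' : FF K' n) : FiniteDimensional K K' := by
  have := h'.ess
  have := Algebra.EssFiniteType.of_comp ℂ K K'
  have : Algebra.IsAlgebraic K K' := by
    rw [← trdeg_eq_zero_iff]
    have h1 := trdeg_add_eq ℂ K (A := K')
    rw [h.trdeg, h'.trdeg] at h1
    exact le_antisymm ((Cardinal.add_le_add_iff_of_lt_aleph0 (α := trdeg K K') (β := 0)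
      (Cardinal.natCast_lt_aleph0 (n := n))).1 (by rw [add_comm, h1, zero_add])) zero_le
  exact Algebra.finite_of_essFiniteType_of_isAlgebraic

theorem Pb.down (h : FF K n) (h' : FF K' n) (P : Pl K') : ∃ Q, Lies (algebraMap K K') P Q :=
  haveI := fin_of_ff h h'
  (h'.ok (IsScalarTower.toAlgHom ℂ K K') P).resolve_left (not_trv P)

theorem Pb.up_alg (h' : FF K' m) (Q : Pl K) : ∃ P : Pl K', Lies (algebraMap K K') P Q := by
  obtain ⟨ι, y, hy⟩ := exists_isTranscendenceBasis' K K'
  let M := IntermediateField.adjoin K (range y)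
  have := hy.isAlgebraic_field
  have := h'.ess
  have : IsScalarTower ℂ M K' := IsScalarTower.of_algebraMap_eq fun _ => rfl
  have := Algebra.EssFiniteType.of_comp ℂ M K'
  have : FiniteDimensional M K' := Algebra.finite_of_essFiniteType_of_isAlgebraic
  let z : ι → M := fun i => ⟨y i, IntermediateField.subset_adjoin _ _ ⟨i, rfl⟩⟩
  obtain ⟨R, hR, -⟩ := exists_gauss (K' := M) (y := z) (AlgebraicIndependent.of_comp M.val hy.1)
    (IntermediateField.lift_injective M (by
      rw [IntermediateField.lift_adjoin, IntermediateField.lift_top, ← range_comp]; rfl)) Q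
  obtain ⟨P, hP⟩ := up_fin (K' := K') R
  exact ⟨P, hP.comp hR⟩

end up

section lin

variable {φ : K →+* K'} (hc : ∀ c, φ (algebraMap ℂ K c) = algebraMap ℂ K' c) (h' : FF K' m)
include hc h'

theorem Pb.up (Q : Pl K) : ∃ P, Lies φ P Q := by
  let _ := φ.toAlgebra
  have : IsScalarTower ℂ K K' := IsScalarTower.of_algebraMap_eq fun c => (hc c).symm
  exact up_alg h' Q

theorem Pb.nonneg_iff {β : BD K} : 0 ≤ pb φ β ↔ 0 ≤ β := by
  refine ⟨fun h Q => ?_, pb_nonneg φ⟩
  obtain ⟨P, hP⟩ := up hc h' Q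
  have := h P
  rw [hP.pb] at this
  exact nonneg_of_mul_nonneg_right this (Int.cast_pos.2 hP.e_pos)

theorem Pb.le_iff {β γ : BD K} : pb φ β ≤ pb φ γ ↔ β ≤ γ := by
  rw [← sub_nonneg, ← pb_sub, nonneg_iff hc h', sub_nonneg]

theorem Pb.inj : Function.Injective (pb φ) := fun _ _ h =>
  le_antisymm ((le_iff hc h').1 h.le) ((le_iff hc h').1 h.ge)

theorem Pb.sec_iff {β : BD K} {f : K} : Sec (pb φ β) (φ f) ↔ Sec β f := by
  have ok : Ok φ := h'.ok ⟨φ, hc⟩
  rw [Sec, Sec, map_eq_zero, ← ok.pb_dv, ← pb_add, nonneg_iff hc h']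

end lin

theorem pb_up : ∀ (n m : ℕ), ForH fun K K' _ _ _ _ φ => FF K n → FF K' m →
    (∀ c, φ (algebraMap ℂ K c) = algebraMap ℂ K' c) → ∀ Q : Pl K, ∃ P, Lies φ P Q :=
  fun _ _ _ _ _ _ _ _ _ _ h' hc => up hc h'

end Vale.Agent.P287D
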