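import Vale.Agent.P287D.Pb.Up
import Vale.Agent.P287D.In.Bas

/-!
# P287D, block PB: the projection formula
-/

set_option linter.unusedSectionVars false

open Set Function
open Vale.Agent.P297Z

noncomputable section

namespace Vale.Agent.P287D

open Pb Gx

namespace Pb

theorem fs {A B : Type} (f : A → B) (hf : ∀ b, (f ⁻¹' {b}).Finite) (w : A → ℝ) {N : ℝ}
    (hN : N ≠ 0) (hw : ∀ b, ∑ a ∈ (hf b).toFinset, w a = N) (u : B → ℝ) :
    ∑ᶠ a, w a * u (f a) = N * ∑ᶠ b, u b := by
  classical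
  by_cases k : (support u).Finite
  · have k' : (f ⁻¹' support u).Finite := k.preimage' fun b _ => hf b
    rw [finsum_eq_sum _ k, finsum_eq_sum_of_support_subset (s := k'.toFinset) _ (fun a ha => by
      simpa using right_ne_zero_of_mul ha), ← Finset.sum_fiberwise_of_maps_to (g := f)
      (t := k.toFinset) (fun a ha => by simpa using ha), Finset.mul_sum]
    refine Finset.sum_congr rfl fun b hb => ?_
    have c : k'.toFinset.filter (f · = b) = (hf b).toFinset := by
      ext x
      simp only [Finset.mem_filter, Finite.mem_toFinset, mem_preimage, mem_singleton_iff,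
        and_iff_right_iff_imp]
      exact fun z => z ▸ k.mem_toFinset.1 hb
    rw [c, ← hw b, Finset.sum_mul]
    exact Finset.sum_congr rfl fun a ha => by rw [show f a = b from (hf b).mem_toFinset.1 ha]
  · rw [finsum_of_infinite_support k, mul_zero, finsum_of_infinite_support fun k' =>
      k ((k'.image f).subset fun b hb => ?_)]
    obtain ⟨a, ha, h0⟩ := Finset.exists_ne_zero_of_sum_ne_zero (hw b ▸ hN)
    have e : f a = b := (hf b).mem_toFinset.1 ha
    exact ⟨a, mul_ne_zero h0 (e ▸ hb), e⟩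

variable {K K' : Type} [Field K] [Algebra ℂ K] [Field K'] [Algebra ℂ K'] {n m : ℕ}

theorem I_congr (h : In.Hy) (hK : FF K n) {β γ : Fin n → BD K} (hβ : ∀ i, β i ∈ Car K)
    (e : ∀ i, γ i - β i ∈ Prn K) : I n K γ = I n K β := by
  have r := h.row n K hK
  have hγ : ∀ i, γ i ∈ Car K := fun i => by simpa using add_mem (Prn_le_Car (e i)) (hβ i)
  refine In.MlOn.chain (r := (· = ·)) (fun _ => rfl) (fun _ _ _ => Eq.trans) γ β fun c i hc => ?_
  have k : ∀ j, c j ∈ Car K := fun j => (hc j).elim (fun e => e ▸ hγ j) fun e => e ▸ hβ j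
  rw [← sub_eq_zero, ← r.ml.sub c i _ _ k (hγ i) (hβ i)]
  exact r.prn _ i (In.upd_mem k i (Prn_le_Car (e i))) (by rw [update_self]; exact e i)

theorem cst_sur (h : FF K 0) : Surjective (algebraMap ℂ K) := by
  have : Algebra.IsAlgebraic ℂ K := by
    rw [← trdeg_eq_zero_iff, h.trdeg, Nat.cast_zero]
  exact (IsAlgClosed.algebraMap_bijective_of_isIntegral (k := ℂ) (K := K)).2

theorem succ_of_pl (hK : FF K n) (P : Pl K) : ∃ k, n = k + 1 := by
  obtain _ | n := n
  · have := P.dvl
    simp [hK.trdeg] at this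
  · exact ⟨n, rfl⟩

/-- the projection formula for finite maps -/
theorem deg (h : In.Hy) (hR : RES) (n : ℕ) : ∀ (K K' : Type) [Field K] [Algebra ℂ K] [Field K']
    [Algebra ℂ K'] (φ : K →+* K'), (∀ c, φ (algebraMap ℂ K c) = algebraMap ℂ K' c) → FF K n →
    FF K' n → ∀ β : Fin n → BD K, (∀ j : Fin n, j.1 ≠ 0 → β j ∈ Car K) →
      I n K' (fun j => pb φ (β j)) = rk φ * I n K β := by
  induction n with
  | zero =>
    intro K K' _ _ _ _ φ hc _ hK' β _
    let _ := φ.toAlgebra
    have : rk φ = 1 := by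
      refine finrank_eq_one (R := K) (1 : K') one_ne_zero fun z => ?_
      obtain ⟨c, rfl⟩ := cst_sur hK' z
      exact ⟨algebraMap ℂ K c, by rw [Algebra.smul_def, mul_one]; exact hc c⟩
    simp [I, this]
  | succ n ih =>
    intro K K' _ _ _ _ φ hc hK hK' β hβ
    let _ := φ.toAlgebra
    have : IsScalarTower ℂ K K' := IsScalarTower.of_algebraMap_eq fun c => (hc c).symm
    have := fin_of_ff hK hK'
    choose f hf using down hK hK'
    have e : ∀ Q, f ⁻¹' {Q} = {P | Lies (algebraMap K K') P Q} := fun Q =>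
      Set.ext fun P => ⟨fun z => z ▸ hf P, (hf P).uniq⟩
    have fi : ∀ Q, (f ⁻¹' {Q}).Finite := fun Q => e Q ▸ fin_above Q
    rw [In.I_succ, In.I_succ, ← fs f fi (fun P => (P.ord (φ (f P).t) * fd φ P (f P) : ℤ))
      (N := rk φ) (Nat.cast_ne_zero.2 (Module.finrank_pos (R := K) (M := K')).ne') fun Q => ?_]
    · refine finsum_congr fun P => ?_
      have l : Lies φ P (f P) := hf P
      have c := rd_lin l.isRd hc
      have cb : ∀ i : Fin n, res (f P) (β i.succ) ∈ Car _ := fun i => In.res_car _ _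
      have f0 := h.rsd n K hK (f P)
      have f1 := h.rsd n K' hK' P
      rw [l.pb, In.cf, In.cf, I_congr h f1 (fun i => ((Cst.of_lin c).ok f0 f1).car (cb i))
        (fun i => ((Cst.of_lin hc).res_lies hR hK hK' l l.isRd (hβ i.succ (by simp))).1),
        ih _ _ l.κ c f0 f1 _ fun j _ => cb j, l.fd]
      push_cast
      ring
    · have := fund (K' := K') Q
      rw [← Int.cast_sum, Finset.sum_congr (s₂ := (fin_above (K' := K') Q).toFinset)
        (g := fun P => P.ord (φ Q.t) * fd φ P Q) (by ext; simp [e]) fun P hP => by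
          rw [(hf P).uniq ((fin_above Q).mem_toFinset.1 hP)]]
      exact_mod_cast this

/-- too many classes from a small field -/
theorem low (h : In.Hy) (hR : RES) (m : ℕ) : ∀ (n : ℕ) (K K' : Type) [Field K] [Algebra ℂ K]
    [Field K'] [Algebra ℂ K'] (φ : K →+* K'), FF K n → FF K' m → Cst φ →
    ∀ (β : Fin m → BD K') (J : Finset (Fin m)), n < J.card →
      (∀ j : Fin m, j.1 ≠ 0 → β j ∈ Car K') → (∀ j ∈ J, ∃ γ ∈ Car K, β j = pb φ γ) →
      I m K' β = 0 := by
  classical
  induction m with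
  | zero => exact fun n _ _ _ _ _ _ _ _ _ _ _ J hJ _ _ => by simp [Subsingleton.elim J ∅] at hJ
  | succ m ih =>
    intro n K K' _ _ _ _ φ hK hK' hc β J hJ hβ hγ
    choose! γ c1 c2 using hγ
    let J' : Finset (Fin m) := Finset.univ.filter fun i => i.succ ∈ J
    have m1 : ∀ i, i ∈ J' ↔ i.succ ∈ J := fun i => by simp [J']
    have s1 : J.erase 0 ⊆ J'.image Fin.succ := fun j hj => by
      obtain ⟨i, rfl⟩ := Fin.exists_succ_eq.2 (Finset.ne_of_mem_erase hj)
      exact Finset.mem_image_of_mem _ ((m1 i).2 (Finset.mem_of_mem_erase hj))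
    have s2 := (Finset.card_le_card s1).trans Finset.card_image_le
    rw [In.I_succ]
    refine finsum_eq_zero_of_forall_eq_zero fun P => ?_
    have f1 := h.rsd m K' hK' P
    rcases hc.ok hK hK' P with t | ⟨Q, l⟩
    · by_cases z : (0 : Fin (m + 1)) ∈ J
      · rw [c2 0 z, t.pb, zero_mul]
      · rw [Finset.erase_eq_of_notMem z] at s2
        rw [In.cf, ih n K P.κ (hr t) hK f1 (hor_cst (hr_apply t) hc) _ J' (by omega)
          (fun _ _ => In.res_car _ _) fun i hi => ⟨γ i.succ, c1 _ ((m1 i).1 hi), by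
            rw [c2 _ ((m1 i).1 hi), hc.res_trv hR hK hK' t (hr_apply t) (c1 _ ((m1 i).1 hi))]⟩,
          mul_zero]
    · obtain ⟨n, rfl⟩ := succ_of_pl hK Q
      have f0 := h.rsd n K hK Q
      have s3 := Finset.pred_card_le_card_erase (s := J) (a := 0)
      let b : Fin m → BD P.κ := fun i =>
        if i ∈ J' then pb l.κ (res Q (γ i.succ)) else res P (β i.succ)
      have cb : ∀ i, b i ∈ Car P.κ := fun i => by
        simp only [b]
        split_ifs
        exacts [(l.isRd.ok hc hK hK').car (In.res_car _ _), In.res_car _ _]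
      rw [In.cf, I_congr h f1 cb fun i => ?_, ih n Q.κ P.κ l.κ f0 f1 (l.isRd.cst hc) b J'
        (by omega) (fun i _ => cb i) fun i hi => ⟨_, In.res_car _ _, if_pos hi⟩, mul_zero]
      simp only [b]
      split_ifs with hi
      · rw [c2 _ ((m1 i).1 hi)]
        exact (hc.res_lies hR hK hK' l l.isRd (c1 _ ((m1 i).1 hi))).1
      · rw [sub_self]; exact zero_mem _

end Pb

theorem pb_deg (h : In.Hy) (hR : RES) : ∀ (n : ℕ) (K K' : Type) [Field K] [Algebra ℂ K] [Field K']
    [Algebra ℂ K'] [Algebra K K'] [IsScalarTower ℂ K K'], FF K n → FF K' n →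
    ∀ β : Fin n → BD K, (∀ j, IsB (n - 1) (β j)) → (∀ j : Fin n, j.1 ≠ 0 → β j ∈ Car K) →
      I n K' (fun j => pb (algebraMap K K') (β j)) = Module.finrank K K' * I n K β := by
  intro n K K' _ _ _ _ a _ hK hK' β _ hβ
  rw [deg h hR n K K' _ (fun c => (IsScalarTower.algebraMap_apply ℂ K K' c).symm) hK hK' β hβ, rk]
  have : (algebraMap K K').toAlgebra = a := Algebra.algebra_ext _ _ fun _ => rfl
  rw [this]

theorem pb_low (h : In.Hy) (hR : RES) : ∀ (n m : ℕ), ForH fun K K' _ _ _ _ φ => FF K n →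
    FF K' m → (∀ c, φ (algebraMap ℂ K c) = algebraMap ℂ K' c) →
    ∀ (β : Fin m → BD K') (J : Finset (Fin m)), n < J.card →
      (∀ j : Fin m, j.1 ≠ 0 → β j ∈ Car K') → (∀ j ∈ J, ∃ γ ∈ Car K, β j = pb φ γ) →
      I m K' β = 0 :=
  fun n m K K' _ _ _ _ φ a b c => low h hR m n K K' φ a b (.of_lin c)

/-- the row **PB** from its clause on canonical classes -/
theorem pb_of (h : In.Hy) (hR : RES) (hur : ∀ (n : ℕ), ForH fun K K' _ _ _ _ φ => FF K n →
    FF K' n → (∀ c, φ (algebraMap ℂ K c) = algebraMap ℂ K' c) → ∃ f : K', f ≠ 0 ∧ ∀ P Q,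
      Lies φ P Q → (cn K' n + dv f) P + 1 = P.ord (φ Q.t) * (cn K n Q + 1)) : PB :=
  ⟨pb_lies, pb_up, pb_rd, pb_rst hR, pb_hor hR, pb_deg h hR, pb_low h hR, hur⟩

end Vale.Agent.P287D
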