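import Vale.Agent.P287D.St
import Vale.Agent.P287D.Pb.Abh

/-!
# P287D, block PB: every map which sends constants to constants is good
-/

set_option linter.unusedSectionVars false

open Set IsLocalRing Algebra Cardinal
open Vale.Agent.P297 (Place)
open Vale.Agent.P297Z

noncomputable section

namespace Vale.Agent.P287D

namespace Pb

theorem alg_map {k k' A B : Type} [Field k] [Field k'] [Field A] [Field B] [Algebra k A]
    [Algebra k' B] (g : A →+* B) {S : Set A} {T : Set B}
    (hk : ∀ a : k, g (algebraMap k A a) ∈ Algebra.adjoin k' T)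
    (hS : ∀ s ∈ S, g s ∈ Algebra.adjoin k' T) {a : A}
    (h : IsAlgebraic (Algebra.adjoin k S) a) : IsAlgebraic (Algebra.adjoin k' T) (g a) := by
  have h3 : ∀ a ∈ Algebra.adjoin k S, g a ∈ Algebra.adjoin k' T := by
    intro a ha
    induction ha using Algebra.adjoin_induction with
    | mem a ha => exact hS a ha
    | algebraMap r => exact hk r
    | add a b _ _ ha hb => rw [map_add]; exact add_mem ha hb
    | mul a b _ _ ha hb => rw [map_mul]; exact mul_mem ha hb
  let f : Algebra.adjoin k S →+* Algebra.adjoin k' T :=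
    (g.comp (Algebra.adjoin k S).val.toRingHom).codRestrict (Algebra.adjoin k' T)
      fun a => h3 a a.2
  refine h.ringHom_of_comp_eq f g (fun a b hab => ?_) rfl
  exact Subtype.ext (g.injective (congrArg Subtype.val hab))

theorem trdeg_le_of_hom {k R E : Type} [Field k] [Field R] [Field E] [Algebra k R] [Algebra k E]
    (j : R →ₐ[k] E) (S : Set E) (h : ∀ a, IsAlgebraic (Algebra.adjoin k S) (j a)) :
    trdeg k R ≤ #S := by
  obtain ⟨t, ht⟩ := exists_isTranscendenceBasis k R
  have h1 : AlgebraicIndependent k fun a : t => j a := ht.1.map' (f := j) j.injective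
  have h2 : (AlgebraicIndependent.matroid k E).Indep (range fun a : t => j a) :=
    h1.to_subtype_range
  have h3 := h2.cardinalMk_le_cRk_of_subset
    (X := (AlgebraicIndependent.matroid k E).closure S) (by
      rintro _ ⟨a, rfl⟩
      rw [AlgebraicIndependent.matroid_closure_eq]
      exact h _)
  rw [Matroid.cRk_closure, Cardinal.mk_range_eq _ h1.injective, ht.cardinalMk_eq_trdeg] at h3
  exact h3.trans (Matroid.cRk_le_cardinalMk _ _)

theorem exists_nonunit {F : Type} [Field F] {W : ValuationSubring F} (hW : W ≠ ⊤) :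
    ∃ t : W, t ≠ 0 ∧ residue W t = 0 := by
  obtain ⟨f, hf⟩ : ∃ f, f ∉ W := by
    by_contra hc
    push Not at hc
    exact hW (eq_top_iff.2 fun f _ => hc f)
  have hf0 : f ≠ 0 := by rintro rfl; exact hf W.zero_mem
  have hi : f⁻¹ ∈ W := (W.mem_or_inv_mem f).resolve_left hf
  refine ⟨⟨f⁻¹, hi⟩, fun h => inv_ne_zero hf0 (congrArg Subtype.val h), ?_⟩
  by_contra hc
  obtain ⟨b, hb⟩ := ((residue_ne_zero_iff_isUnit _).1 hc).exists_right_inv
  have h1 : f⁻¹ * b = 1 := congrArg (fun z : W => (z : F)) hb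
  apply hf
  rw [← inv_inv f, ← eq_inv_of_mul_eq_one_right h1]
  exact b.2

theorem cst_core {k C F E : Type} [Field k] [Field C] [Field F] [Field E] [Algebra k F]
    [Algebra k C] [Algebra F E] [Algebra C E] [Algebra k E] [IsScalarTower k F E]
    [IsScalarTower k C E] {W : ValuationSubring F} {V : ValuationSubring E}
    (h : ∀ f, f ∈ W ↔ algebraMap F E f ∈ V) (hV : V ≠ ⊤)
    (hk : ∀ a, algebraMap k F a ∈ W) (hC : ∀ a, algebraMap C E a ∈ V)
    [Algebra k (ResidueField W)] [Algebra C (ResidueField V)]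
    (ha : ∀ a, algebraMap k _ a = residue W ⟨algebraMap k F a, hk a⟩)
    (hb : ∀ a, algebraMap C _ a = residue V ⟨algebraMap C E a, hC a⟩)
    (hd : trdeg C (ResidueField V) + 1 = trdeg C E) (hE : trdeg C E < ℵ₀) (hF : trdeg k F < ℵ₀) :
    trdeg k F ≤ trdeg k (ResidueField W) + 1 := by
  obtain ⟨β, x, hx⟩ := exists_isTranscendenceBasis' C (ResidueField V)
  choose w hw using fun b => residue_surjective (x b)
  have hβ' : #β < ℵ₀ := by
    rw [hx.cardinalMk_eq_trdeg]; exact lt_of_le_of_lt (hd ▸ le_self_add) hE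
  have hβ : Finite β := Cardinal.lt_aleph0_iff_finite.1 hβ'
  obtain ⟨t, ht0, ht⟩ := exists_nonunit hV
  let z : Option β → E := fun o => ((o.elim t w : V) : E)
  have hz : IsTranscendenceBasis C z :=
    (option_ind hC hb w (by simpa only [hw] using hx.1) t ht0
      ht).isTranscendenceBasis_of_trdeg_le_of_finite (by
        rw [Cardinal.mk_option, hx.cardinalMk_eq_trdeg, hd])
  obtain ⟨B, hB⟩ := exists_isTranscendenceBasis k C
  have hzB := hB.sumElim_comp hz
  obtain ⟨U, hU⟩ := exists_isTranscendenceBasis k F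
  have hUf : Finite U := by
    rw [← Cardinal.lt_aleph0_iff_finite, hU.cardinalMk_eq_trdeg]; exact hF
  let M := AlgebraicIndependent.matroid k E
  obtain ⟨J, hJB, hJ, -, hUJ⟩ := M.exists_subset_finite_closure_of_subset_closure
    (X := range fun u : U => algebraMap F E u)
    (Y := range (Sum.elim z (algebraMap C E ∘ ((↑) : B → C)))) (finite_range _) (by
      rw [AlgebraicIndependent.matroid_closure_eq]
      exact fun a _ => hzB.isAlgebraic.1 a)
  let I : Set B := {b | algebraMap C E b ∈ J}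
  have hI : I.Finite := hJ.preimage
    ((algebraMap C E).injective.comp Subtype.val_injective).injOn
  let S : Set E := range (Sum.elim z fun b : I => algebraMap C E b)
  have hJS : J ⊆ S := fun a ha => by
    obtain ⟨o | b, rfl⟩ := hJB ha
    · exact ⟨.inl o, rfl⟩
    · exact ⟨.inr ⟨b, ha⟩, rfl⟩
  have hFS : ∀ f, IsAlgebraic (Algebra.adjoin k S) (algebraMap F E f) := fun f => by
    have h1 : algebraMap F E f ∈ M.closure (range fun u : U => algebraMap F E u) := by
      rw [AlgebraicIndependent.matroid_closure_eq]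
      refine alg_map (algebraMap F E) (fun a => ?_) ?_ (hU.isAlgebraic.1 f)
      · rw [← IsScalarTower.algebraMap_apply]; exact Subalgebra.algebraMap_mem _ _
      · rintro _ ⟨u, rfl⟩; exact Algebra.subset_adjoin ⟨u, rfl⟩
    have h2 := M.closure_subset_closure_of_subset_closure
      (hUJ.trans (M.closure_mono hJS)) h1
    rwa [AlgebraicIndependent.matroid_closure_eq] at h2
  let A : IntermediateField F E :=
    { carrier := {a | IsAlgebraic (Algebra.adjoin k S) a}
      mul_mem' := fun ha hb => ha.mul hb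
      add_mem' := fun ha hb => ha.add hb
      algebraMap_mem' := hFS
      inv_mem' := fun _ ha => IsAlgebraic.inv_iff.2 ha }
  have hSA : ∀ a ∈ S, a ∈ A := fun a ha =>
    isAlgebraic_algebraMap (⟨a, Algebra.subset_adjoin ha⟩ : Algebra.adjoin k S)
  have hbi : AlgebraicIndependent k fun b : I => ((b : B) : C) :=
    hB.1.comp (fun b : I => (b : B)) Subtype.val_injective
  have hk' : ∀ a, algebraMap k E a ∈ V := fun a => by
    rw [IsScalarTower.algebraMap_apply k C E]; exact hC _
  let _ : Algebra k (ResidueField V) := ((algebraMap C _).comp (algebraMap k C)).toAlgebra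
  have _ : IsScalarTower k C (ResidueField V) := IsScalarTower.of_algebraMap_eq fun _ => rfl
  have hind := hbi.sumElim_comp hx.1
  let V0 : ValuationSubring A := V.comap (algebraMap A E)
  have hk0 : ∀ a, algebraMap k A a ∈ V0 := fun a => hk' a
  let _ : Algebra k (ResidueField V0) :=
    ((residue V0).comp ((algebraMap k A).codRestrict V0 hk0)).toAlgebra
  have h1 : trdeg k (ResidueField V0) ≤ trdeg k (ResidueField W) + trdeg F A :=
    abh (V := V0) (fun f => h f) hk hk0 ha fun _ => rfl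
  have h2 : trdeg k A ≤ #β + 1 + #I := by
    refine (trdeg_le_of_hom (A.val.restrictScalars k) S fun a => a.2).trans
      (Cardinal.mk_range_le.trans ?_)
    rw [Cardinal.mk_sum, Cardinal.lift_id, Cardinal.lift_id, Cardinal.mk_option]
  have hV0 : ∀ f, f ∈ V0 ↔ algebraMap A E f ∈ V := fun _ => Iff.rfl
  let ρ : ResidueField V0 →ₐ[k] ResidueField V := ⟨rm hV0, fun a => by
    change rm hV0 (residue V0 _) = algebraMap C _ (algebraMap k C a)
    rw [rm_residue, hb]
    exact congrArg (residue V) (Subtype.ext (IsScalarTower.algebraMap_apply k C E a))⟩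
  let y : β ⊕ I → V0 := Sum.elim (fun j => ⟨⟨w j, hSA _ ⟨.inl (some j), rfl⟩⟩, (w j).2⟩) fun b =>
    ⟨⟨algebraMap C E b, hSA _ ⟨.inr b, rfl⟩⟩, hC _⟩
  have h3 : AlgebraicIndependent k fun j => residue V0 (y j) := by
    refine AlgebraicIndependent.of_comp ρ ?_
    have : (ρ ∘ fun j => residue V0 (y j)) =
        Sum.elim x (algebraMap C (ResidueField V) ∘ fun b : I => ((b : B) : C)) := by
      funext j
      rcases j with j | a
      · exact hw j
      · exact (hb _).symm
    rw [this]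
    exact hind
  have h4 := h3.cardinalMk_le_trdeg
  rw [Cardinal.mk_sum, Cardinal.lift_id, Cardinal.lift_id] at h4
  have h5 : trdeg k F + trdeg F A = trdeg k A := trdeg_add_eq k F
  have h6 : trdeg F A < ℵ₀ := lt_of_le_of_lt ((h5 ▸ le_add_self).trans h2)
    (Cardinal.add_lt_aleph0 (Cardinal.add_lt_aleph0 hβ' Cardinal.one_lt_aleph0) hI.lt_aleph0)
  refine (Cardinal.add_le_add_iff_of_lt_aleph0 h6).1 ?_
  rw [h5, add_right_comm]
  exact h2.trans (by rw [add_right_comm]; exact add_le_add_left (h4.trans h1) 1)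

end Pb

open Pb

variable {K K' K'' : Type} [Field K] [Algebra ℂ K] [Field K'] [Algebra ℂ K'] [Field K'']
  [Algebra ℂ K''] {n m : ℕ}

theorem Cst.exists_cst {φ : K →+* K'} (h : Cst φ) :
    ∃ σ : ℂ →+* ℂ, ∀ c, algebraMap ℂ K' (σ c) = φ (algebraMap ℂ K c) := by
  choose σ hσ using h
  have hi := (algebraMap ℂ K').injective
  exact ⟨{ toFun := σ
           map_one' := hi (by simp [hσ])
           map_mul' := fun a b => hi (by simp [hσ])
           map_zero' := hi (by simp [hσ])
           map_add' := fun a b => hi (by simp [hσ]) }, hσ⟩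

theorem Cst.comp {φ : K →+* K'} {ψ : K' →+* K''} (h' : Cst ψ) (h : Cst φ) : Cst (ψ.comp φ) :=
  fun c => by
    obtain ⟨d, hd⟩ := h c
    rw [RingHom.comp_apply, ← hd]
    exact h' d

theorem Cst.of_lin {φ : K →+* K'} (h : ∀ c, φ (algebraMap ℂ K c) = algebraMap ℂ K' c) : Cst φ :=
  fun c => ⟨c, (h c).symm⟩

/-- a copy of the constants -/
def Pb.C0 : Type := ℂ

instance : Field Pb.C0 := inferInstanceAs (Field ℂ)

/-- a map which sends constants to constants is good -/
theorem ok_cst (h : trdeg ℂ K < ℵ₀) (h' : trdeg ℂ K' < ℵ₀) {φ : K →+* K'} (hφ : Cst φ) :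
    Ok φ := by
  intro P
  by_cases ht : Trv φ P
  · exact Or.inl ht
  right
  obtain ⟨σ, hσ⟩ := hφ.exists_cst
  let W := P.ring.comap φ
  have hW : W ≠ ⊤ := ne_top ht
  have hk : ∀ c, algebraMap ℂ K c ∈ W := fun c => by
    change φ _ ∈ P.ring
    rw [← hσ]; exact P.con _
  let Q : Place K := ⟨W, dvr_comap _ P.toPlace hW⟩
  refine ⟨⟨Q, hk, ?_⟩, fun _ => Iff.rfl⟩
  let aW : Algebra ℂ (ResidueField W) := (cst Q hk).toAlgebra
  change trdeg ℂ (ResidueField W) + 1 = trdeg ℂ K
  refine le_antisymm (res_lt hW hk fun _ => rfl) ?_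
  let _ : Algebra K K' := φ.toAlgebra
  let _ : Algebra C0 K := ‹Algebra ℂ K›
  let _ : Algebra C0 ℂ := RingHom.toAlgebra (show C0 →+* ℂ from σ)
  let _ : Algebra C0 K' := (φ.comp (algebraMap C0 K)).toAlgebra
  have _ : IsScalarTower C0 K K' := IsScalarTower.of_algebraMap_eq fun _ => rfl
  have _ : IsScalarTower C0 ℂ K' := IsScalarTower.of_algebraMap_eq fun a => (hσ a).symm
  let _ : Algebra ℂ (ResidueField P.ring) := (cst P.toPlace P.con).toAlgebra
  let _ : Algebra C0 (ResidueField W) := aW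
  exact cst_core (k := C0) (C := ℂ) (F := K) (E := K') (W := W) (V := P.ring)
    (fun _ => Iff.rfl) (Pl.ring_ne_top P.toPlace) hk P.con (fun _ => rfl) (fun _ => rfl) P.dvl
    h' h

theorem Cst.ok {φ : K →+* K'} (hφ : Cst φ) (h : FF K n) (h' : FF K' m) : Ok φ :=
  ok_cst (ff_fin h) (ff_fin h') hφ

theorem Gd.ok {φ : K →+* K'} (h : Gd φ) : Ok φ := h.2

theorem gd_ext : ∀ (n m : ℕ), ForH fun K K' _ _ _ _ φ => FF K n → FF K' m → Cst φ → Gd φ :=
  fun _ _ _ _ _ _ _ _ _ h h' hφ => ⟨hφ, hφ.ok h h'⟩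

theorem gd_sys : ForH fun _ _ _ _ _ _ φ => Gd φ → ∀ s,
    pb φ (mx s) = mx (s.map ⟨φ, φ.injective⟩) :=
  fun _ _ _ _ _ _ _ h s => h.ok.pb_mx s

theorem gd_pri : ForH fun _ _ _ _ _ _ φ => Gd φ → ∀ f, pb φ (dv f) = dv (φ f) :=
  fun _ _ _ _ _ _ _ h s => h.ok.pb_dv s

theorem gd_comp : ∀ (K K' K'' : Type) [Field K] [Algebra ℂ K] [Field K'] [Algebra ℂ K'] [Field K'']
    [Algebra ℂ K''] (φ : K →+* K') (ψ : K' →+* K''), Gd φ → Gd ψ →
      Gd (ψ.comp φ) ∧ ∀ β, pb (ψ.comp φ) β = pb ψ (pb φ β) :=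
  fun _ _ _ _ _ _ _ _ _ φ _ h h' => ⟨⟨h'.1.comp h.1, h'.ok.comp h.ok⟩, h'.ok.pb_comp φ⟩

/-- the row **GD** from its clause on canonical classes -/
theorem gd_of (mov : ∀ (n m : ℕ), ForH fun K K' _ _ _ _ φ => FF K n → FF K' m → Cst φ →
    Subfield.closure (range φ ∪ range (algebraMap ℂ K')) = ⊤ →
    ∃ f : K', f ≠ 0 ∧ pb φ (cn K n) ≤ cn K' m + dv f) : GD :=
  ⟨gd_ext, gd_sys, gd_pri, gd_comp, mov⟩

end Vale.Agent.P287D
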