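import Vale.Agent.P287D.Pb.Res

/-!
# P287D, block PB: Gauss places
-/

set_option linter.unusedSectionVars false

open Set IsLocalRing Algebra Cardinal MvPolynomial
open Vale.Agent.P297 (Place)
open Vale.Agent.P297Z

noncomputable section

namespace Vale.Agent.P287D

namespace Pb

section gen

variable {F E : Type} [Field F] [Field E] {ι : Type}

theorem norm_poly (W : ValuationSubring F) {p : MvPolynomial ι F} (hp : p ≠ 0) :
    ∃ (c : F) (q : MvPolynomial ι W), c ≠ 0 ∧ map (residue W) q ≠ 0 ∧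
      p = C c * map W.subtype q := by
  classical
  obtain ⟨m, hm, hmax⟩ := p.support.exists_max_image (fun m => W.valuation (p.coeff m))
    (support_nonempty.2 hp)
  have hc : p.coeff m ≠ 0 := mem_support_iff.1 hm
  obtain ⟨q, hq⟩ : C (p.coeff m)⁻¹ * p ∈ range (map W.subtype) := by
    rw [mem_range_map_iff_coeffs_subset]
    intro c hc'
    obtain ⟨n, hn, rfl⟩ := mem_coeffs_iff.1 hc'
    have hn' : n ∈ p.support := by
      rw [mem_support_iff, coeff_C_mul] at hn
      exact mem_support_iff.2 (right_ne_zero_of_mul hn)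
    refine ⟨⟨coeff n (C (p.coeff m)⁻¹ * p), ?_⟩, rfl⟩
    rw [coeff_C_mul, ← W.valuation_le_one_iff, map_mul, map_inv₀, mul_comm,
      ← div_eq_mul_inv, div_le_one₀ (zero_lt_iff.2 ((map_ne_zero _).2 hc))]
    exact hmax n hn'
  refine ⟨_, q, hc, fun h => ?_, by
    rw [hq, ← mul_assoc, ← C_mul, mul_inv_cancel₀ hc, C_1, one_mul]⟩
  have h4 := congrArg (coeff m) h
  have h5 := congrArg (coeff m) hq
  rw [coeff_map, coeff_C_mul, inv_mul_cancel₀ hc] at h5
  have h6 : q.coeff m = 1 := Subtype.ext h5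
  rw [coeff_map, h6, map_one, coeff_zero] at h4
  exact one_ne_zero h4

variable [Algebra F E] (W : ValuationSubring F) (y : ι → E)

/-- the evaluation -/
def ev : MvPolynomial ι W →+* E := eval₂Hom ((algebraMap F E).comp W.subtype) y

theorem ev_eq (q : MvPolynomial ι W) : ev W y q = aeval y (map W.subtype q) := by
  rw [aeval_def, eval₂_map]; rfl

theorem ev_C (a : W) : ev W y (C a) = algebraMap F E a := eval₂Hom_C _ _ _

theorem ev_X (i : ι) : ev W y (X i) = y i := eval₂Hom_X' _ _ _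

variable {W y}

theorem ev_inj (hy : AlgebraicIndependent F y) : Function.Injective (ev W y) := fun p q h => by
  rw [ev_eq, ev_eq] at h
  exact map_injective _ Subtype.val_injective (hy h)

theorem ev_ne (hy : AlgebraicIndependent F y) {q : MvPolynomial ι W}
    (h : map (residue W) q ≠ 0) : ev W y q ≠ 0 := fun e =>
  h (by rw [ev_inj hy (e.trans (map_zero _).symm), map_zero])

theorem nf (W : ValuationSubring F) (hg : IntermediateField.adjoin F (range y) = ⊤) {z : E}
    (hz : z ≠ 0) : ∃ (c : F) (p q : MvPolynomial ι W), c ≠ 0 ∧ map (residue W) p ≠ 0 ∧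
      map (residue W) q ≠ 0 ∧ z * ev W y q = algebraMap F E c * ev W y p := by
  obtain ⟨r, s, rfl⟩ := (IntermediateField.mem_adjoin_range_iff F y z).1 (hg ▸ trivial)
  have hs : aeval y s ≠ 0 := fun h => hz (by rw [h, div_zero])
  obtain ⟨c, p, c0, hp, rfl⟩ := norm_poly W (p := r) fun h => hz (by rw [h, map_zero, zero_div])
  obtain ⟨d, q, d0, hq, rfl⟩ := norm_poly W (p := s) fun h => hs (by rw [h, map_zero])
  refine ⟨c / d, p, q, div_ne_zero c0 d0, hp, hq, ?_⟩
  rw [map_mul, aeval_C, ← ev_eq] at hs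
  have := right_ne_zero_of_mul hs
  have := left_ne_zero_of_mul hs
  rw [map_mul, map_mul, aeval_C, aeval_C, ← ev_eq, ← ev_eq, map_div₀]
  field_simp

/-- the Gauss extension -/
def gau (W : ValuationSubring F) (_hy : AlgebraicIndependent F y)
    (hg : IntermediateField.adjoin F (range y) = ⊤) : ValuationSubring E where
  carrier := {z | ∃ p q : MvPolynomial ι W, map (residue W) q ≠ 0 ∧ z * ev W y q = ev W y p}
  mul_mem' := by
    rintro a b ⟨p, q, h, e⟩ ⟨p', q', h', e'⟩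
    exact ⟨p * p', q * q', by rw [map_mul]; exact mul_ne_zero h h', by
      rw [map_mul, map_mul, ← e, ← e']; ring⟩
  one_mem' := ⟨1, 1, by simp, by simp⟩
  add_mem' := by
    rintro a b ⟨p, q, h, e⟩ ⟨p', q', h', e'⟩
    exact ⟨p * q' + p' * q, q * q', by rw [map_mul]; exact mul_ne_zero h h', by
      rw [map_add, map_mul, map_mul, map_mul, ← e, ← e']; ring⟩
  zero_mem' := ⟨0, 1, by simp, by simp⟩
  neg_mem' := by
    rintro a ⟨p, q, h, e⟩
    exact ⟨-p, q, h, by rw [map_neg, ← e, neg_mul]⟩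
  mem_or_inv_mem' z := by
    by_cases hz : z = 0
    · exact Or.inl ⟨0, 1, by simp, by simp [hz]⟩
    obtain ⟨c, p, q, c0, hp, hq, e⟩ := nf W hg hz
    rcases W.mem_or_inv_mem c with h | h
    · exact Or.inl ⟨C ⟨c, h⟩ * p, q, hq, by rw [e, map_mul, ev_C]⟩
    · refine Or.inr ⟨C ⟨c⁻¹, h⟩ * q, p, hp, ?_⟩
      have := (map_ne_zero (algebraMap F E)).2 c0
      rw [map_mul, ev_C, map_inv₀, inv_mul_eq_iff_eq_mul₀ hz, mul_left_comm, e]
      field_simp

variable {hy : AlgebraicIndependent F y} {hg : IntermediateField.adjoin F (range y) = ⊤}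

theorem ev_mem (p : MvPolynomial ι W) : ev W y p ∈ gau W hy hg := ⟨p, 1, by simp, by simp⟩

theorem ev_inv {p : MvPolynomial ι W} (h : map (residue W) p ≠ 0) :
    (ev W y p)⁻¹ ∈ gau W hy hg := ⟨1, p, h, by rw [inv_mul_cancel₀ (ev_ne hy h), map_one]⟩

theorem mem_gau (f : F) : f ∈ W ↔ algebraMap F E f ∈ gau W hy hg := by
  refine ⟨fun h => ev_C W y ⟨f, h⟩ ▸ ev_mem _, fun ⟨p, q, h, e⟩ => ?_⟩
  by_contra hf
  have hf0 : f ≠ 0 := by rintro rfl; exact hf W.zero_mem
  have hi : f⁻¹ ∈ W := (W.mem_or_inv_mem f).resolve_left hf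
  have h1 : q = C ⟨f⁻¹, hi⟩ * p := ev_inj hy (by
    rw [map_mul, ev_C, ← e, ← mul_assoc, ← map_mul, inv_mul_cancel₀ hf0, map_one, one_mul])
  have h2 : residue W ⟨f⁻¹, hi⟩ = 0 := by
    by_contra hc
    obtain ⟨b, hb⟩ := ((residue_ne_zero_iff_isUnit _).1 hc).exists_right_inv
    have h1 : f⁻¹ * b = 1 := congrArg (fun z : W => (z : F)) hb
    apply hf
    rw [← inv_inv f, ← eq_inv_of_mul_eq_one_right h1]
    exact b.2
  exact h (by rw [h1, map_mul, map_C, h2, C_0, zero_mul])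

theorem gau_unit {z : E} (hz : z ≠ 0) : ∃ c : F, c ≠ 0 ∧ z / algebraMap F E c ∈ gau W hy hg ∧
    (z / algebraMap F E c)⁻¹ ∈ gau W hy hg := by
  obtain ⟨c, p, q, c0, hp, hq, e⟩ := nf W hg hz
  have h0 := (map_ne_zero (algebraMap F E)).2 c0
  have h1 := ev_ne hy hq
  have e' : z / algebraMap F E c = ev W y p * (ev W y q)⁻¹ := by
    field_simp
    rw [e]
  refine ⟨c, c0, e' ▸ mul_mem (ev_mem p) (ev_inv hq), ?_⟩
  rw [e', mul_inv, inv_inv]
  exact mul_mem (ev_inv hp) (ev_mem q)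

/-- a valuation ring with the value group of a place is discrete -/
theorem dvr_of_unit (φ : F →+* E) (Q : Place F) (V : ValuationSubring E)
    (h : ∀ f, f ∈ Q.ring ↔ φ f ∈ V)
    (hu : ∀ z : E, z ≠ 0 → ∃ c : F, c ≠ 0 ∧ z / φ c ∈ V ∧ (z / φ c)⁻¹ ∈ V) :
    IsDiscreteValuationRing V := by
  classical
  have key : ∀ (I : Ideal V) (b : V), b ∈ I → b ≠ 0 → ∃ (c : F) (hc : c ∈ Q.ring), c ≠ 0 ∧
      (⟨φ c, (h c).1 hc⟩ : V) ∈ I ∧ (b : E) / φ c ∈ V := by
    intro I b hb b0
    have b1 : (b : E) ≠ 0 := fun e => b0 (Subtype.ext e)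
    obtain ⟨c, c0, h1, h2⟩ := hu b b1
    have e : φ c = ((b : E) / φ c)⁻¹ * b := by
      have := (map_ne_zero φ).2 c0
      field_simp
    refine ⟨c, (h c).2 (e ▸ mul_mem h2 b.2), c0, ?_, h1⟩
    have := I.mul_mem_left ⟨_, h2⟩ hb
    rwa [show (⟨_, h2⟩ * b : V) = ⟨φ c, e ▸ mul_mem h2 b.2⟩ from Subtype.ext e.symm] at this
  have hp : IsPrincipalIdealRing V := ⟨fun I => by
    by_cases hI : I = ⊥
    · rw [hI]; exact bot_isPrincipal
    have hex : ∃ n : ℕ, ∃ (c : F) (hc : c ∈ Q.ring), c ≠ 0 ∧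
        (⟨φ c, (h c).1 hc⟩ : V) ∈ I ∧ Q.ord c = n := by
      obtain ⟨a, ha, h0⟩ := (Submodule.ne_bot_iff I).1 hI
      obtain ⟨c, hc, c0, h1, -⟩ := key I a ha h0
      exact ⟨(Q.ord c).toNat, c, hc, c0, h1,
        (Int.toNat_of_nonneg (Pl.ord_nonneg_of_mem Q hc)).symm⟩
    obtain ⟨a, ha, a0, haI, hn⟩ := Nat.find_spec hex
    refine ⟨_, le_antisymm (fun b hb => ?_) ((Submodule.span_singleton_le_iff_mem _ _).2 haI)⟩
    by_cases hb0 : b = 0
    · rw [hb0]; exact Submodule.zero_mem _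
    obtain ⟨c, hc, c0, h1, h2⟩ := key I b hb hb0
    have h3 := Int.toNat_of_nonneg (Pl.ord_nonneg_of_mem Q hc)
    have h4 := Nat.find_min' hex ⟨c, hc, c0, h1, h3.symm⟩
    have h5 : c / a ∈ Q.ring := by
      rw [← Pl.ord_nonneg_iff Q (div_ne_zero c0 a0), Pl.ord_div Q c0 a0]
      omega
    refine Submodule.mem_span_singleton.2 ⟨⟨_, mul_mem h2 ((h _).1 h5)⟩, Subtype.ext ?_⟩
    change (b : E) / φ c * φ (c / a) * φ a = b
    have := (map_ne_zero φ).2 c0
    have := (map_ne_zero φ).2 a0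
    rw [map_div₀]
    field_simp⟩
  obtain ⟨t, t0, ht⟩ := exists_nonunit (Pl.ring_ne_top Q)
  refine { not_a_field' := fun hb => t0 (Subtype.ext ?_) }
  have h1 : residue V ⟨φ t, (h t).1 t.2⟩ = 0 := by rw [← rm_residue h, ht, map_zero]
  rw [residue_eq_zero_iff, hb, Ideal.mem_bot] at h1
  exact (map_eq_zero φ).1 (congrArg Subtype.val h1)

theorem y_mem (i : ι) : y i ∈ gau W hy hg := ev_X W y i ▸ ev_mem _

theorem res_ev (p : MvPolynomial ι W) : residue (gau W hy hg) ⟨ev W y p, ev_mem p⟩ =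
    eval₂ (rm mem_gau) (fun i => residue (gau W hy hg) ⟨y i, y_mem i⟩) (map (residue W) p) := by
  let a : MvPolynomial ι W →+* ResidueField (gau W hy hg) :=
    (residue _).comp ((ev W y).codRestrict (gau W hy hg) ev_mem)
  let b : MvPolynomial ι W →+* ResidueField (gau W hy hg) :=
    (eval₂Hom (rm mem_gau) fun i => residue (gau W hy hg) ⟨y i, y_mem i⟩).comp (map (residue W))
  have : a = b := by
    refine ringHom_ext (fun r => ?_) fun i => ?_
    · simp only [b, RingHom.comp_apply, map_C, eval₂Hom_C, rm_residue]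
      exact congrArg (residue _) (Subtype.ext (ev_C W y r))
    · simp only [b, RingHom.comp_apply, map_X, eval₂Hom_X']
      exact congrArg (residue _) (Subtype.ext (ev_X W y i))
  exact DFunLike.congr_fun this p

theorem res_ev_ne {p : MvPolynomial ι W} (h : map (residue W) p ≠ 0) :
    residue (gau W hy hg) ⟨ev W y p, ev_mem p⟩ ≠ 0 :=
  (residue_ne_zero_iff_isUnit _).2 (IsUnit.of_mul_eq_one ⟨_, ev_inv h⟩
    (Subtype.ext (mul_inv_cancel₀ (ev_ne hy h))))

theorem gau_ind (p : MvPolynomial ι (ResidueField W))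
    (h : eval₂ (rm mem_gau) (fun i => residue (gau W hy hg) ⟨y i, y_mem i⟩) p = 0) : p = 0 := by
  obtain ⟨q, rfl⟩ := map_surjective (residue W) residue_surjective p
  by_contra hc
  exact res_ev_ne hc ((res_ev q).trans h)

theorem gau_gen (a : ResidueField (gau W hy hg)) : ∃ p q : MvPolynomial ι (ResidueField W),
    a = eval₂ (rm mem_gau) (fun i => residue (gau W hy hg) ⟨y i, y_mem i⟩) p /
      eval₂ (rm mem_gau) (fun i => residue (gau W hy hg) ⟨y i, y_mem i⟩) q := by
  obtain ⟨⟨z, p, q, h, e⟩, rfl⟩ := residue_surjective a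
  refine ⟨map (residue W) p, map (residue W) q, ?_⟩
  rw [← res_ev, ← res_ev, eq_div_iff (res_ev_ne h), ← map_mul]
  exact congrArg (residue _) (Subtype.ext e)

end gen

end Pb

open Pb Gx

variable {K K' : Type} [Field K] [Algebra ℂ K] [Field K'] [Algebra ℂ K'] [Algebra K K']
  [IsScalarTower ℂ K K'] {ι : Type}

/-- a valuation ring over a divisorial place with a large residue field -/
theorem Pb.dvl_of (Q : Pl K) (P : Place K') (h : ∀ f, f ∈ Q.ring ↔ algebraMap K K' f ∈ P.ring)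
    (hd : trdeg K K' ≤ @trdeg (ResidueField Q.ring) (ResidueField P.ring) _ _ (rm h).toAlgebra) :
    ∃ R : Pl K', R.toPlace = P := by
  have hk : ∀ c, algebraMap ℂ K' c ∈ P.ring := fun c => by
    rw [IsScalarTower.algebraMap_apply ℂ K K']; exact (h _).1 (Q.con c)
  refine ⟨⟨P, hk, ?_⟩, rfl⟩
  let _ : Algebra ℂ (ResidueField Q.ring) := (cst Q.toPlace Q.con).toAlgebra
  let _ : Algebra ℂ (ResidueField P.ring) := (cst P hk).toAlgebra
  let _ : Algebra (ResidueField Q.ring) (ResidueField P.ring) := (rm h).toAlgebra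
  have _ : IsScalarTower ℂ (ResidueField Q.ring) (ResidueField P.ring) :=
    IsScalarTower.of_algebraMap_eq fun c =>
      congrArg (residue P.ring) (Subtype.ext (IsScalarTower.algebraMap_apply ℂ K K' c))
  have h1 : trdeg ℂ (ResidueField Q.ring) + 1 = trdeg ℂ K := Q.dvl
  have h2 := le_antisymm (res_le (fun f hf => (h f).1 hf) fun a => rm_residue h a) hd
  change trdeg ℂ (ResidueField P.ring) + 1 = _
  rw [← trdeg_add_eq ℂ (ResidueField Q.ring) (A := ResidueField P.ring), h2, add_right_comm, h1,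
    trdeg_add_eq]

/-- **the Gauss place** -/
theorem exists_gauss {y : ι → K'} (hy : AlgebraicIndependent K y)
    (hg : IntermediateField.adjoin K (range y) = ⊤) (Q : Pl K) :
    ∃ (P : Pl K') (h : Lies (algebraMap K K') P Q), P.ord (algebraMap K K' Q.t) = 1 ∧
      (∀ i, y i ∈ P.ring) ∧ (∀ p, eval₂ h.κ (fun i => P.rd (y i)) p = 0 → p = 0) ∧
      ∀ a : P.κ, ∃ p q, a = eval₂ h.κ (fun i => P.rd (y i)) p /
        eval₂ h.κ (fun i => P.rd (y i)) q := by
  let P : Place K' := ⟨gau Q.ring hy hg, dvr_of_unit _ Q.toPlace _ mem_gau fun _ => gau_unit⟩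
  have hm : ∀ f, f ∈ Q.ring ↔ algebraMap K K' f ∈ P.ring := mem_gau (hy := hy) (hg := hg)
  have ym : ∀ i, y i ∈ P.ring := y_mem (hy := hy) (hg := hg)
  obtain ⟨⟨R, hc, hd⟩, rfl : R = P⟩ := dvl_of Q P hm (by
    let _ : Algebra (ResidueField Q.ring) (ResidueField P.ring) := (rm hm).toAlgebra
    have h1 : AlgebraicIndependent (ResidueField Q.ring)
        fun i => residue P.ring ⟨y i, ym i⟩ :=
      algebraicIndependent_iff.2 (gau_ind (hy := hy) (hg := hg))
    have h2 : IsTranscendenceBasis K y := by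
      rw [hy.isTranscendenceBasis_iff_isAlgebraic, ← IntermediateField.isAlgebraic_adjoin_iff_top,
        hg]
      exact ⟨fun a => isAlgebraic_algebraMap (⟨a, trivial⟩ : (⊤ : IntermediateField K K'))⟩
    rw [← h2.cardinalMk_eq_trdeg]
    exact h1.cardinalMk_le_trdeg)
  let R : Pl K' := ⟨P, hc, hd⟩
  have hl : Lies (algebraMap K K') R Q := hm
  have e : (fun i => R.rd (y i)) = fun i => residue P.ring ⟨y i, ym i⟩ :=
    funext fun i => rd_of R (ym i)
  refine ⟨R, hl, ?_, ym, ?_, ?_⟩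
  · obtain ⟨c, c0, h1, h2⟩ := gau_unit (W := Q.ring) (hy := hy) (hg := hg) R.t_ne
    have h3 := Pl.ord_unit P h1 h2
    have h4 : R.ord R.t = 1 := R.ord_t
    have h5 := hl.ord c
    rw [Pl.ord_div _ R.t_ne ((map_ne_zero _).2 c0), sub_eq_zero] at h3
    exact Int.eq_one_of_mul_eq_one_right hl.e_pos.le (h5.symm.trans (h3.symm.trans h4))
  · rw [e]; exact gau_ind (hy := hy) (hg := hg)
  · rw [e]; exact gau_gen (hy := hy) (hg := hg)

end Vale.Agent.P287D
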