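import Vale.Agent.P287D.Pb.Gau
import Vale.Agent.P287D.Gm.Pt
import Vale.Agent.P287D.Gf.Xi
import Vale.Agent.P287D.Fm.Ds

/-!
# P287D, block PB: the extension of the constants of a place
-/

set_option linter.unusedSectionVars false

open Set IsLocalRing TensorProduct
open Vale.Agent.P297 (Place)
open Vale.Agent.P297Z

noncomputable section

namespace Vale.Agent.P287D

namespace Pb

section abs

variable {k C F E κ M : Type} [Field k] [Field C] [Field F] [Field E] [Field κ] [Field M]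
  [Algebra k C] [Algebra k F] [Algebra F E] [Algebra C E] [Algebra k E] [IsScalarTower k F E]
  [IsScalarTower k C E] [Algebra k κ] [Algebra κ M] [Algebra C M] [Algebra k M]
  [IsScalarTower k κ M] [IsScalarTower k C M] {W : ValuationSubring F} [Algebra k W]
  [IsScalarTower k W F]

variable (C) in
/-- the map of the tensor product -/
def tm {A B : Type} [CommRing A] [Field B] [Algebra k A] [Algebra k B] [Algebra C B]
    [IsScalarTower k C B] (r : A →ₐ[k] B) : C ⊗[k] A →ₐ[C] B :=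
  Algebra.TensorProduct.lift (Algebra.ofId C B) r fun _ _ => Commute.all _ _

theorem tm_tmul {A B : Type} [CommRing A] [Field B] [Algebra k A] [Algebra k B] [Algebra C B]
    [IsScalarTower k C B] (r : A →ₐ[k] B) (c : C) (a : A) :
    tm C r (c ⊗ₜ a) = algebraMap C B c * r a := rfl

theorem tm_zero (b : Gf.BE k F C E) {A ι : Type} [CommRing A] [Algebra k A] (r : A →ₐ[k] F)
    {e : ι → C} (he : LinearIndependent k e) (s : Finset ι) (a : ι → A)
    (h : tm C ((IsScalarTower.toAlgHom k F E).comp r) (∑ i ∈ s, e i ⊗ₜ a i) = 0) :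
    ∀ i ∈ s, r (a i) = 0 :=
  linearIndependent_iff'.1 (Fm.dis_swap b he) s _ (by
    rw [← h, map_sum]
    exact Finset.sum_congr rfl fun i _ => by rw [tm_tmul, Algebra.smul_def, mul_comm]; rfl)

theorem exists_lift (b : Gf.BE k F C E) (b' : Gf.BE k κ C M) (r : W →ₐ[k] κ)
    (hr : Function.Surjective r) (h0 : ∀ a, ¬ IsUnit a → r a = 0) :
    ∃ (V : ValuationSubring E) (h : ∀ f, f ∈ W ↔ algebraMap F E f ∈ V)
      (hc : ∀ c, algebraMap C E c ∈ V) (θ : ResidueField V ≃+* M),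
      (∀ z ≠ 0, ∃ c : F, c ≠ 0 ∧ z / algebraMap F E c ∈ V ∧ (z / algebraMap F E c)⁻¹ ∈ V) ∧
      (∀ a : W, θ (residue V ⟨_, (h a).1 a.2⟩) = algebraMap κ M (r a)) ∧
      ∀ c, θ (residue V ⟨_, hc c⟩) = algebraMap C M c := by
  classical
  let e := Module.Basis.ofVectorSpace k C
  let μ := tm C ((IsScalarTower.toAlgHom k F E).comp (IsScalarTower.toAlgHom k W F))
  let ν := tm C ((IsScalarTower.toAlgHom k κ M).comp r)
  let μ' := tm C ((IsScalarTower.toAlgHom k F E).comp (AlgHom.id k F))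
  have m1 : ∀ a : W, μ (1 ⊗ₜ a) = algebraMap F E a := fun a => by
    rw [tm_tmul, map_one, one_mul]; rfl
  have n1 : ∀ a : W, ν (1 ⊗ₜ a) = algebraMap κ M (r a) := fun a => by
    rw [tm_tmul, map_one, one_mul]; rfl
  have inj : Function.Injective μ := (injective_iff_map_eq_zero μ).2 fun p hp => by
    obtain ⟨a, rfl⟩ := TensorProduct.eq_repr_basis_left e p
    exact Finset.sum_eq_zero fun i hi => (congrArg (e i ⊗ₜ ·)
      (Subtype.ext (tm_zero b _ e.linearIndependent _ a hp i hi))).trans (tmul_zero _ _)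
  have ne : ∀ {q}, ν q ≠ 0 → μ q ≠ 0 := fun {q} hq w =>
    hq (by rw [inj (w.trans (map_zero _).symm), map_zero])
  have n0 : ∀ x, μ' x ≠ 0 → ∃ (c : F) (p : C ⊗[k] W), c ≠ 0 ∧ ν p ≠ 0 ∧
      μ' x = algebraMap F E c * μ p := fun x hx => by
    obtain ⟨a, rfl⟩ := TensorProduct.eq_repr_basis_left e x
    obtain ⟨m, hm, mx⟩ := a.support.exists_max_image (fun i => W.valuation (a i))
      (Finsupp.support_nonempty_iff.2 fun w => hx (by simp [w]))
    have c0 : a m ≠ 0 := Finsupp.mem_support_iff.1 hm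
    have hw : ∀ i, a i / a m ∈ W := fun i => by
      by_cases hi : i ∈ a.support
      · rw [← W.valuation_le_one_iff, map_div₀,
          div_le_one₀ (zero_lt_iff.2 ((map_ne_zero _).2 c0))]
        exact mx i hi
      · rw [Finsupp.notMem_support_iff.1 hi, zero_div]
        exact zero_mem _
    refine ⟨a m, ∑ i ∈ a.support, e i ⊗ₜ ⟨_, hw i⟩, c0, fun w => ?_, ?_⟩
    · have := tm_zero b' r e.linearIndependent _ _ w m hm
      rw [show (⟨_, hw m⟩ : W) = 1 from Subtype.ext (div_self c0), map_one] at this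
      exact one_ne_zero this
    · rw [Finsupp.sum, map_sum, map_sum, Finset.mul_sum]
      refine Finset.sum_congr rfl fun i _ => ?_
      rw [tm_tmul, tm_tmul, mul_left_comm]
      exact congrArg _ ((congrArg (algebraMap F E) (mul_div_cancel₀ _ c0).symm).trans
        (map_mul _ _ _))
  have nf : ∀ z : E, z ≠ 0 → ∃ (c : F) (p q : C ⊗[k] W), c ≠ 0 ∧ ν p ≠ 0 ∧ ν q ≠ 0 ∧
      z * μ q = algebraMap F E c * μ p := fun z hz => by
    have s : Subring.closure (range (algebraMap F E) ∪ range (algebraMap C E)) ≤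
        μ'.toRingHom.range := Subring.closure_le.2 (by
      rintro _ (⟨f, rfl⟩ | ⟨c, rfl⟩)
      · exact ⟨1 ⊗ₜ f, (tm_tmul _ _ _).trans (by rw [map_one, one_mul]; rfl)⟩
      · exact ⟨_, μ'.commutes c⟩)
    obtain ⟨x, hx, y, hy, rfl⟩ := Subfield.mem_closure_iff.1 (b.gen ▸ Subfield.mem_top z)
    obtain ⟨x, rfl⟩ := s hx
    obtain ⟨y, rfl⟩ := s hy
    obtain ⟨c, p, c0, hp, e1⟩ := n0 x (div_ne_zero_iff.1 hz).1
    obtain ⟨d, q, d0, hq, e2⟩ := n0 y (div_ne_zero_iff.1 hz).2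
    refine ⟨c / d, p, q, div_ne_zero c0 d0, hp, hq, ?_⟩
    have := ne hq
    have := (map_ne_zero (algebraMap F E)).2 d0
    change μ' x / μ' y * _ = _
    rw [e1, e2, map_div₀]
    field_simp
  let V : ValuationSubring E :=
    { carrier := {z | ∃ p q, ν q ≠ 0 ∧ z * μ q = μ p}
      mul_mem' := by
        rintro a b ⟨p, q, h, e⟩ ⟨p', q', h', e'⟩
        exact ⟨p * p', q * q', by rw [map_mul]; exact mul_ne_zero h h', by
          rw [map_mul, map_mul, ← e, ← e']; ring⟩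
      one_mem' := ⟨1, 1, by simp, by simp⟩
      add_mem' := by
        rintro a b ⟨p, q, h, e⟩ ⟨p', q', h', e'⟩
        exact ⟨p * q' + p' * q, q * q', by rw [map_mul]; exact mul_ne_zero h h', by
          rw [map_add, map_mul, map_mul, map_mul, ← e, ← e']; ring⟩
      zero_mem' := ⟨0, 1, by simp, by simp⟩
      neg_mem' := by
        rintro a ⟨p, q, h, e⟩
        exact ⟨-p, q, h, by rw [map_neg, ← e, neg_mul]⟩
      mem_or_inv_mem' := fun z => by
        by_cases hz : z = 0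
        · exact Or.inl ⟨0, 1, by simp, by simp [hz]⟩
        obtain ⟨c, p, q, c0, hp, hq, e⟩ := nf z hz
        rcases W.mem_or_inv_mem c with h | h
        · exact Or.inl ⟨1 ⊗ₜ ⟨c, h⟩ * p, q, hq, by rw [e, map_mul, m1]⟩
        · refine Or.inr ⟨1 ⊗ₜ ⟨c⁻¹, h⟩ * q, p, hp, ?_⟩
          have := (map_ne_zero (algebraMap F E)).2 c0
          rw [map_mul, m1, map_inv₀, inv_mul_eq_iff_eq_mul₀ hz, mul_left_comm, e]
          field_simp }
  have mem : ∀ p, μ p ∈ V := fun p => ⟨p, 1, by simp, by simp⟩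
  have inv : ∀ {p}, ν p ≠ 0 → (μ p)⁻¹ ∈ V := fun {p} h =>
    ⟨1, p, h, by rw [inv_mul_cancel₀ (ne h), map_one]⟩
  have h : ∀ f, f ∈ W ↔ algebraMap F E f ∈ V := fun f => by
    refine ⟨fun h => m1 ⟨f, h⟩ ▸ mem _, ?_⟩
    rintro ⟨p, q, h, e⟩
    refine by_contra fun hf => h ?_
    have f0 : f ≠ 0 := by rintro rfl; exact hf W.zero_mem
    have hi : f⁻¹ ∈ W := (W.mem_or_inv_mem f).resolve_left hf
    have h1 : q = 1 ⊗ₜ ⟨f⁻¹, hi⟩ * p := inj (by
      rw [map_mul, m1, ← e, ← mul_assoc, ← map_mul, inv_mul_cancel₀ f0, map_one, one_mul])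
    rw [h1, map_mul, n1, h0 _ fun u => ?_, map_zero, zero_mul]
    obtain ⟨b, hb⟩ := u.exists_right_inv
    exact hf ((inv_mul_eq_one₀ f0).1 (congrArg Subtype.val hb) ▸ b.2)
  let ρ : C ⊗[k] W →+* ResidueField V := (residue V).comp (μ.toRingHom.codRestrict V mem)
  have r0 : ∀ p, ρ p ≠ 0 ↔ ν p ≠ 0 := fun p => (residue_ne_zero_iff_isUnit _).trans
    ⟨fun u w => by
      obtain ⟨⟨b, p', q, hq, e⟩, hb⟩ := u.exists_right_inv
      have h1 : μ p * b = 1 := congrArg Subtype.val hb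
      exact hq (by rw [show q = p * p' from inj (by rw [map_mul, ← e, ← mul_assoc, h1, one_mul]),
        map_mul, w, zero_mul]),
    fun w => .of_mul_eq_one ⟨_, inv w⟩ (Subtype.ext (mul_inv_cancel₀ (ne w)))⟩
  obtain ⟨θ, hθ⟩ := Gx.frac ρ ν.toRingHom (Ideal.ext fun p => not_iff_not.1 (r0 p)) fun z => by
    obtain ⟨⟨z, p, q, hq, e⟩, rfl⟩ := residue_surjective z
    exact ⟨p, q, (eq_div_iff ((r0 q).2 hq)).2
      ((map_mul _ _ _).symm.trans (congrArg (residue V) (Subtype.ext e)))⟩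
  have hc : ∀ c, algebraMap C E c ∈ V := fun c => μ.commutes c ▸ mem _
  have t1 : ∀ a : W, θ (residue V ⟨_, (h a).1 a.2⟩) = algebraMap κ M (r a) := fun a =>
    (congrArg (fun z => θ (residue V z)) (Subtype.ext (m1 a).symm)).trans ((hθ _).trans (n1 a))
  have t2 : ∀ c, θ (residue V ⟨_, hc c⟩) = algebraMap C M c := fun c =>
    (congrArg (fun z => θ (residue V z)) (Subtype.ext (μ.commutes c).symm)).trans
      ((hθ _).trans (ν.commutes c))
  refine ⟨V, h, hc, .ofBijective θ ⟨θ.injective, fun z => ?_⟩, fun z hz => ?_, t1, t2⟩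
  · refine (Subfield.closure_le (t := θ.fieldRange)).2 ?_ (b'.gen ▸ Subfield.mem_top z)
    rintro _ (⟨a, rfl⟩ | ⟨c, rfl⟩)
    · exact let ⟨a, e⟩ := hr a; ⟨_, e ▸ t1 a⟩
    · exact ⟨_, t2 c⟩
  · obtain ⟨c, p, q, c0, hp, hq, e⟩ := nf z hz
    have h0 := (map_ne_zero (algebraMap F E)).2 c0
    have h1 := ne hq
    have e' : z / algebraMap F E c = μ p * (μ q)⁻¹ := by
      field_simp
      rw [e]
    refine ⟨c, c0, e' ▸ mul_mem (mem p) (inv hq), ?_⟩
    rw [e', mul_inv, inv_inv]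
    exact mul_mem (inv hp) (mem q)

end abs

end Pb

open Pb Gm

variable {K K' M : Type} [Field K] [Algebra ℂ K] [Field K'] [Algebra ℂ K'] [Field M] [Algebra ℂ M]
  {n : ℕ} {ψ : K →+* K'}

theorem Pb.ext_bot (cst : Cst ψ)
    (gen : Subfield.closure (range ψ ∪ range (algebraMap ℂ K')) = ⊤)
    (dis : ∀ (m : ℕ) (v : Fin m → K), LinearIndependent ℂ v → LinearIndependent ℂ fun i => ψ (v i)) :
    Ext ⊥ ψ :=
  ⟨fun _ hb => let ⟨c, e⟩ := IntermediateField.mem_bot.1 hb; e ▸ cst c, gen,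
    fun m v hv => dis m v (hv.restrict_scalars' ℂ)⟩

/-- the extension of the constants along a given map -/
theorem Pb.exists_ext_of (K : Type) [Field K] [Algebra ℂ K] (j : ℂ →+* ℂ) :
    ∃ (K' : Type) (_ : Field K') (_ : Algebra ℂ K') (ψ : K →+* K'), Ext ⊥ ψ ∧
      ∀ c, ψ (algebraMap ℂ K c) = algebraMap ℂ K' (j c) := by
  let _ : Algebra ℂ C0 := RingHom.toAlgebra (show ℂ →+* C0 from j)
  obtain ⟨K', _, ψ, ι, sq, gen, dis⟩ := exists_amal ℂ K C0
  let _ : Algebra ℂ K' := RingHom.toAlgebra (show ℂ →+* K' from ι)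
  exact ⟨K', inferInstance, inferInstance, ψ, ext_bot (fun c => ⟨_, (sq c).symm⟩) gen
    fun m v hv => Fintype.linearIndependent_iff.2 fun c hc => dis m v hv c
      (hc ▸ Finset.sum_congr rfl fun i _ => (Algebra.smul_def (c i) _).symm), sq⟩

theorem Ext.exists_j (h : Ext ⊥ ψ) :
    ∃ j : ℂ →+* ℂ, ∀ c, ψ (algebraMap ℂ K c) = algebraMap ℂ K' (j c) :=
  ⟨h.j.comp (algebraMap ℂ _), fun c => (h.j_spec (algebraMap ℂ _ c)).symm⟩

theorem Ext.comp_equiv (h : Ext ⊥ ψ) (e : K' ≃ₐ[ℂ] M) : Ext ⊥ ((e : K' →+* M).comp ψ) := by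
  obtain ⟨j, hj⟩ := h.exists_j
  refine ext_bot (fun c => ⟨j c, ((congrArg e (hj c)).trans (e.commutes _)).symm⟩)
    (eq_top_iff.2 fun x _ => ?_) fun m v hv =>
      (dis_bot h hv).map' e.toLinearMap (LinearMap.ker_eq_bot.2 e.injective)
  obtain ⟨x, rfl⟩ := e.surjective x
  refine Subfield.mem_comap.1 ((Subfield.closure_le (t := .comap (e : K' →+* M) _)).2 ?_
    (h.gen ▸ Subfield.mem_top x))
  rintro _ (⟨a, rfl⟩ | ⟨c, rfl⟩)
  · exact Subfield.subset_closure (.inl ⟨a, rfl⟩)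
  · exact Subfield.subset_closure (.inr ⟨c, (e.commutes c).symm⟩)

/-- the place with a given extension of the residue field -/
theorem Ext.place (h : Ext ⊥ ψ) (hK : FF K (n + 1)) (Q : Pl K) {χ : Q.κ →+* M} (h' : Ext ⊥ χ)
    {j : ℂ →+* ℂ} (hj : ∀ c, ψ (algebraMap ℂ K c) = algebraMap ℂ K' (j c))
    (hj' : ∀ c, χ (algebraMap ℂ Q.κ c) = algebraMap ℂ M (j c)) :
    ∃ (P : Pl K') (l : Lies ψ P Q) (e : P.κ ≃ₐ[ℂ] M), P.ord (ψ Q.t) = 1 ∧
      ∀ a, e (l.κ a) = χ a := by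
  let _ : Algebra K K' := ψ.toAlgebra
  let _ : Algebra Q.κ M := χ.toAlgebra
  let _ : Algebra C0 K := ‹Algebra ℂ K›
  let _ : Algebra C0 Q.κ := RingHom.toAlgebra (show C0 →+* Q.κ from algebraMap ℂ Q.κ)
  let _ : Algebra C0 ℂ := RingHom.toAlgebra (show C0 →+* ℂ from j)
  let _ : Algebra C0 K' := (ψ.comp (algebraMap C0 K)).toAlgebra
  let _ : Algebra C0 M := (χ.comp (algebraMap C0 Q.κ)).toAlgebra
  let _ : Algebra C0 Q.ring := ((algebraMap C0 K).codRestrict Q.ring Q.con).toAlgebra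
  have _ : IsScalarTower C0 K K' := .of_algebraMap_eq fun _ => rfl
  have _ : IsScalarTower C0 ℂ K' := .of_algebraMap_eq hj
  have _ : IsScalarTower C0 Q.κ M := .of_algebraMap_eq fun _ => rfl
  have _ : IsScalarTower C0 ℂ M := .of_algebraMap_eq hj'
  have _ : IsScalarTower C0 Q.ring K := .of_algebraMap_eq fun _ => rfl
  let r : Q.ring →ₐ[C0] Q.κ := { residue Q.ring with commutes' := fun _ => rfl }
  have b : Gf.BE C0 K ℂ K' := ⟨h.gen, fun _ _ => dis_bot h⟩
  have b' : Gf.BE C0 Q.κ ℂ M := ⟨h'.gen, fun _ _ => dis_bot h'⟩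
  obtain ⟨V, hV, hc, θ, u, t1, t2⟩ := exists_lift b b' r residue_surjective
    fun a ha => (residue_eq_zero_iff a).2 ha
  let R : Place K' := ⟨V, dvr_of_unit ψ Q.toPlace V hV u⟩
  let _ : Algebra ℂ (ResidueField R.ring) := (P287D.cst R hc).toAlgebra
  let e : ResidueField R.ring ≃ₐ[ℂ] M := { θ with commutes' := t2 }
  let P : Pl K' := ⟨R, hc, by
    rw [e.trdeg_eq, ff_trdeg (h'.ff ff_bot (Gm.ffs.rsd n K hK Q)), ff_trdeg (h.ff ff_bot hK),
      Nat.cast_succ]⟩
  have l : Lies ψ P Q := hV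
  refine ⟨P, l, e, ?_, fun a => ?_⟩
  · obtain ⟨c, c0, h1, h2⟩ := u P.t P.t_ne
    have h3 := Pl.ord_unit R h1 h2
    rw [Pl.ord_div _ P.t_ne ((map_ne_zero _).2 c0), sub_eq_zero] at h3
    exact Int.eq_one_of_mul_eq_one_right l.e_pos.le ((l.ord c).symm.trans (h3.symm.trans P.ord_t))
  · obtain ⟨a, rfl⟩ := residue_surjective (R := Q.ring) a
    exact t1 a

/-- **the extension of the constants of a place** -/
theorem Ext.above (h : Ext ⊥ ψ) (hK : FF K (n + 1)) (Q : Pl K) :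
    ∃ (P : Pl K') (l : Lies ψ P Q), P.ord (ψ Q.t) = 1 ∧ Ext ⊥ l.κ := by
  obtain ⟨j, hj⟩ := h.exists_j
  obtain ⟨M, _, _, χ, h', hj'⟩ := exists_ext_of Q.κ j
  obtain ⟨P, l, e, a, b⟩ := h.place hK Q h' hj hj'
  refine ⟨P, l, a, ?_⟩
  rw [show l.κ = (e.symm : M →+* P.κ).comp χ from
    RingHom.ext fun x => e.injective ((b x).trans (e.apply_symm_apply _).symm)]
  exact h'.comp_equiv _

/-- an extension of the constants of the residue field lifts -/
theorem lift_ext (hK : FF K (n + 1)) (Q : Pl K) {χ : Q.κ →+* M} (h' : Ext ⊥ χ) :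
    ∃ (K' : Type) (_ : Field K') (_ : Algebra ℂ K') (ψ : K →+* K') (P : Pl K') (l : Lies ψ P Q)
      (e : P.κ ≃ₐ[ℂ] M), Ext ⊥ ψ ∧ FF K' (n + 1) ∧ P.ord (ψ Q.t) = 1 ∧ ∀ a, e (l.κ a) = χ a := by
  obtain ⟨j, hj'⟩ := h'.exists_j
  obtain ⟨K', _, _, ψ, h, hj⟩ := exists_ext_of K j
  obtain ⟨P, l, e, a, b⟩ := h.place hK Q h' hj hj'
  exact ⟨K', _, _, ψ, P, l, e, h, h.ff ff_bot hK, a, b⟩

open Cb Vale.Agent.P285N.Brep in
/-- the generic point exists as soon as the new constants contain a copy of the field -/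
theorem Ext.gen_pt {φ : K →+* K'} (h : Ext ⊥ φ) (hK : FF K (n + 1)) (j : K →+* ℂ)
    (hc : ∀ c, φ (algebraMap ℂ K c) = algebraMap ℂ K' (j (algebraMap ℂ K c))) :
    ∃ x, GenPt n φ x := by
  have hK' : FF K' (n + 1) := h.ff ff_bot hK
  obtain ⟨y, D, hD, e⟩ := exists_cn hK
  have hy := Pb.dis_alg h (((jac_ne_iff hD y).1 (jac_ne hD hD)).extendScalars _)
  have jc : ∀ E : Fin (n + 1) → Derivation ℂ K' K',
      jac E (fun i => φ (y i) - algebraMap ℂ K' (j (y i))) = jac E fun i => φ (y i) := fun E => by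
    simp [jac]
  obtain ⟨E₀, h₀⟩ := fr_of hK' hy
  obtain ⟨x, E, o⟩ := exists_org hK' ((jac_ne_iff h₀ _).1 (jc E₀ ▸ jac_ne h₀ h₀))
  have := hD.fin
  have r := gen_res x j hc (s := range y) (range_subset_iff.2 o.mx)
  have tv : Trv φ x := fun f => let ⟨c, k⟩ := r f; by simpa using add_mem k.mem (x.con c)
  have a1 : ∀ a ∈ Submodule.span ℂ (range φ), ∀ i, E i a ∈ Submodule.span ℂ (range φ) :=
    fun a ha i => Submodule.span_le (p := (Submodule.span ℂ (range φ)).comap (E i).toLinearMap).2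
      (range_subset_iff.2 fun f => by
        have := expand ((dr_of (E i)).comp φ) (fun c => by
          rw [hc, Derivation.map_algebraMap]) hD f
        have d := o.fr.dual i
        simp only [map_sub, Derivation.map_algebraMap, sub_zero] at d
        simp only [d, ite_mul, one_mul, zero_mul, Finset.sum_ite_eq, Finset.mem_univ,
          if_true] at this
        exact Submodule.subset_span ⟨_, this.symm⟩) ha
  have a2 : ∀ a ∈ Submodule.span ℂ (range φ), ∃ c : ℂ, Mx x (a - algebraMap ℂ K' c) :=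
    fun a ha => by
    induction ha using Submodule.span_induction with
    | mem a ha => exact ha.elim fun f e => e ▸ r f
    | zero => exact ⟨0, by simp [mx_zero]⟩
    | add a b _ _ ha hb =>
      exact ha.elim fun c k => hb.elim fun d l => ⟨c + d, by
        simpa only [map_add, add_sub_add_comm] using k.add l⟩
    | smul d a _ ha =>
      exact ha.elim fun c k => ⟨d * c, by
        simpa only [map_mul, mul_sub, Algebra.smul_def] using k.mul (x.con d)⟩
  have a3 := o.kap_eq (o.ord_one a1 (fun a ha => (a2 a ha).elim fun c k => by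
    simpa using add_mem k.mem (x.con c)) (eq_top_iff.2 (h.gen ▸ Subfield.closure_mono
      (union_subset_union_left _ Submodule.subset_span))))
  refine ⟨x, tv, fun f => ?_, fun f hf => ?_,
    fun β hβ c => mult_of h hK hK' tv (o.taylor a1 a2) hβ⟩
  · obtain ⟨c, k⟩ := r f
    rw [← rd_eq_zero k.mem, rd_sub (tv f) (x.con c), rd_const, sub_eq_zero] at k
    exact ⟨c, k.symm⟩
  · have k := (jc E).symm.trans (jac_self o.fr)
    rw [tr_eq h hK hK' e hy hf, kap_chg o.fr (k ▸ one_ne_zero), k, Pi.add_apply, a3]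
    simp [dv_apply]

/-- **the generic point of a prime divisor** -/
theorem gen_pt_on (hK : FF K (n + 2)) (Q : Pl K) :
    ∃ (K' : Type) (_ : Field K') (_ : Algebra ℂ K') (ψ : K →+* K') (P : Pl K') (l : Lies ψ P Q)
      (x : Pl P.κ), Ext ⊥ ψ ∧ FF K' (n + 2) ∧ P.ord (ψ Q.t) = 1 ∧ Ext ⊥ l.κ ∧ GenPt n l.κ x := by
  have hQ := Gm.ffs.rsd _ K hK Q
  obtain ⟨-, -, -, -, j, -⟩ := exists_ext hQ
  obtain ⟨K', _, _, ψ, h, hj⟩ := exists_ext_of K (j.comp (algebraMap ℂ _))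
  obtain ⟨P, l, a, b⟩ := h.above hK Q
  obtain ⟨x, c⟩ := b.gen_pt hQ j fun c => by
    rw [← Gx.rd_cst Q, l.isRd _ (Q.con c), hj, Gx.rd_cst, Gx.rd_cst]
    rfl
  exact ⟨K', _, _, ψ, P, l, x, h, h.ff ff_bot hK, a, b, c⟩

end Vale.Agent.P287D
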